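import Vale.Agent.P167.QM.Rel

/-!
# P167, general `q`, block Q-MIX1: statements

A free flat side: the squares below the level of the site `z` are closed in the box of radius `R`
around `z`. `HB z d` is the half box of radius `d` at the side.
-/

namespace Vale.Agent.P167.QM

open Finset Vale.Agent.P167.FK Vale.Agent.P167.FKA Relation
open Vale.Agent.P145.FB (PStep PConn)

/-- The squares of the box of radius `R` around `z` above the level of `z`. -/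
noncomputable def HB (z : ℤ × ℤ) (R : ℤ) : Finset (ℤ × ℤ) := (Bq z R).filter (fun v => z.2 ≤ v.2)

/-- Open outside of the box of radius `R` around `z`, closed inside. -/
noncomputable def ow (z : ℤ × ℤ) (R : ℤ) : Cfg := cf (Bq z R) eta1 ∅

/-- The probability that the half box of radius `d` is closed; everything outside of the half box of
radius `R` is closed. -/
noncomputable def p0 (Q : ℝ) (z : ℤ × ℤ) (d R : ℤ) : ℝ := Pr Q (HB z R) eta0 (Cl (HB z d))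

/-- The same, everything outside of the box of radius `R` is open. -/
noncomputable def p1 (Q : ℝ) (z : ℤ × ℤ) (d R : ℤ) : ℝ := Pr Q (HB z R) (ow z R) (Cl (HB z d))

/-- The even corners of the squares outside of the box. -/
def Tout (z : ℤ × ℤ) (R : ℤ) : Set (ℤ × ℤ) := {u | Even (u.1 + u.2) ∧ ∃ v, v ∉ Bq z R ∧ Cor v u}

/-- Bound for the arms: (a) no connection from the outside of the box `(z, Λ n)` to the box `(z, n)`
with positive probability in every subdomain; (b) the clusters of a block do not reach distance `ρ`. -/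
def M_ARM (Q : ℝ) : Prop :=
  (∃ (Λ : ℤ) (c : ℝ), 2 ≤ Λ ∧ 0 < c ∧ ∀ (z : ℤ × ℤ) (n : ℤ) (U : Finset (ℤ × ℤ)), 1 ≤ n →
    U ⊆ Bq z (Λ * n) → c ≤ 1 - Pr Q U (ow z (Λ * n))
      {ω | Jt (Bq z (Λ * n)) {u | nm (u - z) ≤ n} (Tout z (Λ * n)) ω}) ∧
  ∃ α C : ℝ, 0 < α ∧ α ≤ 1 ∧ 0 < C ∧ ∀ (z : ℤ × ℤ) (R : ℤ) (U : Finset (ℤ × ℤ)) (z' : ℤ × ℤ)
    (d ρ : ℤ), 1 ≤ d → d ≤ ρ → U ⊆ Bq z R → Bq z' ρ ⊆ Bq z R →
    Pr Q U (ow z R) {ω | Jt (Bq z R) {u | ρ ≤ nm (u - z')} (cor (HB z' d)) ω} ≤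
      C * ((d : ℝ) / ρ) ^ α

/-- **MIX > 1 at a free flat side**, block form. -/
def MIX1 (Q : ℝ) : Prop := ∃ c C : ℝ, 0 < c ∧ 0 < C ∧ ∀ (z : ℤ × ℤ) (d R : ℤ),
  Even (z.1 + z.2) → 1 ≤ d → d ≤ R →
    (1 - C * ((d : ℝ) / R) ^ (1 + c)) * p0 Q z d R ≤ p1 Q z d R

/-- The optimisation. -/
def M_OPT : Prop := ∀ (A : ℤ → ℤ → ℝ) (K : ℤ) (C α : ℝ), 1 ≤ K → 0 < C → 0 < α → α ≤ 1 →
  (∀ d R, 1 ≤ d → d ≤ R → 0 ≤ A d R ∧ A d R ≤ 1) →
  (∀ d R R', 1 ≤ d → d ≤ R → R ≤ R' → A d R' ≤ A d R) →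
  (∀ d n ρ : ℤ, 1 ≤ d → 4 * d ≤ ρ → ρ ≤ n → A d (K * n) ≤
    C * ((ρ : ℝ) / n * (d / n) + (n : ℝ) / ρ * ((d : ℝ) / ρ) ^ α * A d (ρ / 2))) →
  (∀ d n : ℤ, 1 ≤ d → d ≤ n → A d (K * n) ≤ C * ((d : ℝ) / n)) →
  ∃ c C' : ℝ, 0 < c ∧ 0 < C' ∧ ∀ d R : ℤ, 1 ≤ d → d ≤ R → A d R ≤ C' * ((d : ℝ) / R) ^ (1 + c)

end Vale.Agent.P167.QM
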