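import Vale.Agent.P167.QM.Defs
import Vale.Agent.P167.H135.Q.Dens

/-!
# P167, general `q`, block Q-MIX1: consequences

Flat sides in the four directions, free (`b = false`) or wired (`b = true`), at any site `z`, of any
domain `D`: the law inside of the half box of radius `d` depends little on the configuration outside
of the half box of radius `R` and on the domain.
-/

namespace Vale.Agent.P167.QM

open Finset Vale.Agent.P167.FK Vale.Agent.P167.FKA Relation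
open Vale.Agent.P167.H259 (f_markov f_fkg f_comp f_comp2 Ex_out cf_cf PC_mono)
open Vale.Agent.P167.H519 (cf_in loc_mono)
open Vale.Agent.P167.H135.Q (BT Dom tv_le BI)

variable {Q : ℝ}

/-- The half plane of squares at the site `z` in the direction `r`: up, left, down, right. -/
def hp (r : Fin 4) (z v : ℤ × ℤ) : Prop :=
  match r with
  | 0 => z.2 ≤ v.2
  | 1 => v.1 < z.1
  | 2 => v.2 < z.2
  | 3 => z.1 ≤ v.1

open Classical in
/-- The half box of radius `R` at the site `z` in the direction `r`. -/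
noncomputable def HS (r : Fin 4) (z : ℤ × ℤ) (R : ℤ) : Finset (ℤ × ℤ) := (Bq z R).filter (hp r z)

/-- The domain `D` with the configuration `η` outside has at `z` a flat side of size `R`, all squares
behind the side are in the state `b`. -/
structure Side (r : Fin 4) (b : Bool) (D : Finset (ℤ × ℤ)) (η : Cfg) (z : ℤ × ℤ) (R : ℤ) : Prop where
  sub : HS r z R ⊆ D
  out : ∀ v ∈ Bq z R, ¬ hp r z v → v ∉ D ∧ η v = b

theorem consBq {z v : ℤ × ℤ} {R : ℤ} : v ∈ Bq z R ↔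
    (z.1 - R ≤ v.1 ∧ v.1 < z.1 + R) ∧ (z.2 - R ≤ v.2 ∧ v.2 < z.2 + R) := by
  simp only [Bq, Finset.mem_product, Finset.mem_Ico]

theorem mem_HS {r : Fin 4} {z v : ℤ × ℤ} {R : ℤ} : v ∈ HS r z R ↔ v ∈ Bq z R ∧ hp r z v := by
  simp only [HS, Finset.mem_filter]

theorem consHB {z v : ℤ × ℤ} {R : ℤ} : v ∈ HB z R ↔ v ∈ Bq z R ∧ z.2 ≤ v.2 := by
  simp only [HB, Finset.mem_filter]

theorem HS_zero (z : ℤ × ℤ) (R : ℤ) : HS 0 z R = HB z R := by
  ext v
  rw [mem_HS, consHB]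
  rfl

theorem HS_mono (r : Fin 4) (z : ℤ × ℤ) {d R : ℤ} (h : d ≤ R) : HS r z d ⊆ HS r z R := by
  intro v hv
  rw [mem_HS, consBq] at *
  refine ⟨?_, hv.2⟩
  omega

/-- One reference measure for all the domains; `P a b` compares the expectations. -/
def OB (Q : ℝ) (r : Fin 4) (b : Bool) (z : ℤ × ℤ) (d R : ℤ) (P : ℝ → ℝ → Prop) : Prop :=
  ∃ (D0 : Finset (ℤ × ℤ)) (η0 : Cfg), Good η0 ∧ ∀ (D : Finset (ℤ × ℤ)) (η : Cfg), Side r b D η z R →
    Good η → ∀ F : Cfg → ℝ, Loc (HS r z d) F → (∀ ω, 0 ≤ F ω) → P (Ex Q D0 η0 F) (Ex Q D η F)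

/-! ### Transport -/

/-- Transport by a symmetry. -/
theorem ob_sym (hQ0 : 0 < Q) {τ : ℤ × ℤ → ℤ × ℤ} (hτ : τ ∈ syms) (hi : ∀ v, τ (τ v) = v)
    {r r' : Fin 4} {z z' : ℤ × ℤ} (hB : ∀ v R, v ∈ Bq z R ↔ τ v ∈ Bq z' R)
    (hp' : ∀ v, hp r z v ↔ hp r' z' (τ v)) {b : Bool} {d R : ℤ} {P : ℝ → ℝ → Prop}
    (h : OB Q r' b z' d R P) : OB Q r b z d R P := by
  obtain ⟨D0, η0, hη0, h⟩ := h
  obtain ⟨hg, hs⟩ := f_sym τ hτ
  have him : ∀ D : Finset (ℤ × ℤ), (D.image τ).image τ = D := by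
    intro D
    rw [Finset.image_image]
    have : (τ ∘ τ) = id := by funext v; exact hi v
    rw [this, Finset.image_id]
  have hmi : ∀ (D : Finset (ℤ × ℤ)) v, v ∈ D.image τ ↔ τ v ∈ D := by
    intro D v
    rw [Finset.mem_image]
    constructor
    · rintro ⟨w, hw, rfl⟩
      rw [hi]
      exact hw
    · intro hv
      exact ⟨τ v, hv, hi v⟩
  have hcc : ∀ ω : Cfg, (ω ∘ τ) ∘ τ = ω := by
    intro ω
    funext v
    show ω (τ (τ v)) = ω v
    rw [hi]
  refine ⟨D0.image τ, η0 ∘ τ, hg η0 hη0, ?_⟩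
  intro D η hS hη F hF h0
  have h1 := h (D.image τ) (η ∘ τ) ⟨?_, ?_⟩ (hg η hη) (fun ω => F (ω ∘ τ)) ?_ fun ω => h0 _
  · have e1 : Ex Q (D.image τ) (η ∘ τ) (fun ω => F (ω ∘ τ)) = Ex Q D η F := by
      rw [hs Q (D.image τ) η _ hQ0 hη, him]
      simp only [hcc]
    have e2 : Ex Q (D0.image τ) (η0 ∘ τ) F = Ex Q D0 η0 (fun ω => F (ω ∘ τ)) := by
      rw [hs Q (D0.image τ) η0 _ hQ0 hη0, him]
    rw [e1, ← e2] at h1
    exact h1
  · intro v hv
    rw [hmi]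
    refine hS.sub ?_
    rw [mem_HS] at hv ⊢
    rw [hB, hp', hi]
    exact hv
  · intro v hv hv'
    rw [hmi]
    refine hS.out (τ v) ?_ ?_
    · rw [hB, hi]
      exact hv
    · rw [hp', hi]
      exact hv'
  · intro ω ω' hw
    refine hF _ _ fun v hv => ?_
    refine hw (τ v) ?_
    rw [mem_HS] at hv ⊢
    rw [← hB, ← hp']
    exact hv

theorem good_dui {η : Cfg} (h : Good η) : Good (dui η) := by
  have h1 := (f_sym _ (show (fun v : ℤ × ℤ => (v.1 + 1, v.2 + 1)) ∈ syms by simp [syms])).1 _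
    (f_dual.1 η h)
  have h2 := (f_sym _ (show (fun v : ℤ × ℤ => (v.1 + 1, v.2 - 1)) ∈ syms by simp [syms])).1 _ h1
  have e : ((du η ∘ fun v : ℤ × ℤ => (v.1 + 1, v.2 + 1)) ∘ fun v : ℤ × ℤ => (v.1 + 1, v.2 - 1)) =
      dui η := by
    funext v
    simp only [Function.comp, du, dui]
    congr 2
    simp only [Prod.mk.injEq]
    constructor <;> ring
  rw [← e]
  exact h2

/-- Transport by duality. -/
theorem ob_dual (hQ0 : 0 < Q) {r : Fin 4} {z : ℤ × ℤ} {d R : ℤ} {P : ℝ → ℝ → Prop}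
    (h : OB Q r false (shi z) d R P) : OB Q r true z d R P := by
  obtain ⟨D0, η0, hη0, h⟩ := h
  have hsh : ∀ v R, v ∈ HS r (shi z) R ↔ FKA.sh v ∈ HS r z R := by
    intro v R
    rw [mem_HS, mem_HS, consBq, consBq]
    simp only [FKA.sh, shi]
    have : hp r (z.1 - 1, z.2) v ↔ hp r z (v.1 + 1, v.2) := by
      unfold hp
      fin_cases r <;> simp only <;> omega
    rw [this]
    constructor
    · rintro ⟨h1, h2⟩; exact ⟨by omega, h2⟩
    · rintro ⟨h1, h2⟩; exact ⟨by omega, h2⟩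
  have hhp : ∀ v, hp r (shi z) v ↔ hp r z (FKA.sh v) := by
    intro v
    unfold hp
    simp only [FKA.sh, shi]
    fin_cases r <;> simp only <;> omega
  have hBB : ∀ v R, v ∈ Bq (shi z) R ↔ FKA.sh v ∈ Bq z R := by
    intro v R
    rw [consBq, consBq]
    simp only [FKA.sh, shi]
    omega
  have hms : ∀ (D : Finset (ℤ × ℤ)) v, v ∈ D.image FKA.shi ↔ FKA.sh v ∈ D := by
    intro D v
    rw [Finset.mem_image]
    constructor
    · rintro ⟨w, hw, rfl⟩
      rw [sh_shi]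
      exact hw
    · intro hv
      exact ⟨FKA.sh v, hv, shi_sh v⟩
  have him : ∀ D : Finset (ℤ × ℤ), (D.image FKA.shi).image FKA.sh = D := by
    intro D
    rw [Finset.image_image]
    have : (FKA.sh ∘ shi) = id := by funext v; exact sh_shi v
    rw [this, Finset.image_id]
  refine ⟨D0.image FKA.sh, du η0, f_dual.1 _ hη0, ?_⟩
  intro D η hS hη F hF h0
  have h1 := h (D.image FKA.shi) (dui η) ⟨?_, ?_⟩ (good_dui hη) (fun ω => F (du ω)) ?_ fun ω => h0 _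
  · have e1 : Ex Q (D.image FKA.shi) (dui η) (fun ω => F (du ω)) = Ex Q D η F := by
      have := f_dual.2 Q (D.image FKA.shi) (dui η) F hQ0 (good_dui hη)
      rw [du_dui] at this
      rw [← this]
      congr 1
      exact him D
    have e2 : Ex Q (D0.image FKA.sh) (du η0) F = Ex Q D0 η0 (fun ω => F (du ω)) :=
      f_dual.2 Q D0 η0 F hQ0 hη0
    rw [e1, ← e2] at h1
    exact h1
  · intro v hv
    rw [hms]
    exact hS.sub ((hsh v R).1 hv)
  · intro v hv hv'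
    rw [hms]
    obtain ⟨h2, h3⟩ := hS.out (FKA.sh v) ((hBB v R).1 hv) fun h => hv' ((hhp v).2 h)
    refine ⟨h2, ?_⟩
    show (!η (v.1 + 1, v.2)) = false
    have : η (v.1 + 1, v.2) = true := h3
    rw [this]
    rfl
  · intro ω ω' hw
    refine hF _ _ fun v hv => ?_
    simp only [du]
    congr 1
    refine hw _ ?_
    show shi v ∈ HS r (shi z) d
    rw [hsh, sh_shi]
    exact hv

/-- Sites of the wrong parity. -/
theorem ob_shift {z : ℤ × ℤ} {d R : ℤ} {b : Bool} {P : ℝ → ℝ → Prop}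
    (h : OB Q 0 b (FKA.sh z) (d + 1) (R - 1) P) : OB Q 0 b z d R P := by
  obtain ⟨D0, η0, hη0, h⟩ := h
  refine ⟨D0, η0, hη0, fun D η hS hη F hF h0 => h D η ⟨?_, ?_⟩ hη F (loc_mono ?_ hF) h0⟩
  · intro v hv
    refine hS.sub ?_
    rw [mem_HS, consBq] at hv ⊢
    simp only [FKA.sh, hp] at hv ⊢
    omega
  · intro v hv hv'
    refine hS.out v ?_ hv'
    rw [consBq] at hv ⊢
    simp only [FKA.sh] at hv
    omega
  · intro v hv
    rw [mem_HS, consBq] at hv ⊢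
    simp only [FKA.sh, hp] at hv ⊢
    omega

/-- From free sides above even sites to all sides. -/
theorem ob_all (hQ0 : 0 < Q) {P : ℤ → ℤ → ℝ → ℝ → Prop}
    (h : ∀ (z : ℤ × ℤ) (d R : ℤ), Even (z.1 + z.2) → 1 ≤ d → d ≤ R → OB Q 0 false z d R (P d R)) :
    ∀ (r : Fin 4) (b : Bool) (z : ℤ × ℤ) (d R : ℤ), 1 ≤ d → d + 2 ≤ R →
      OB Q r b z d R (P d R) ∨ OB Q r b z d R (P (d + 1) (R - 1)) := by
  have s1 : ∀ (z : ℤ × ℤ) (d R : ℤ), 1 ≤ d → d + 2 ≤ R →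
      OB Q 0 false z d R (P d R) ∨ OB Q 0 false z d R (P (d + 1) (R - 1)) := by
    intro z d R hd hR
    by_cases hz : Even (z.1 + z.2)
    · exact Or.inl (h z d R hz hd (by omega))
    · refine Or.inr (ob_shift (h (FKA.sh z) (d + 1) (R - 1) ?_ (by omega) (by omega)))
      simp only [FKA.sh]
      rw [Int.even_iff] at *
      omega
  have s2 : ∀ (z : ℤ × ℤ) (d R : ℤ), 1 ≤ d → d + 2 ≤ R →
      OB Q 2 false z d R (P d R) ∨ OB Q 2 false z d R (P (d + 1) (R - 1)) := by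
    intro z d R hd hR
    have hm : (fun v : ℤ × ℤ => (v.1, -1 - v.2)) ∈ syms := by simp [syms]
    rcases s1 (z.1, -z.2) d R hd hR with h1 | h1
    · refine Or.inl (ob_sym hQ0 hm (fun v => by ext <;> simp) (z' := (z.1, -z.2)) (r' := 0)
        (fun v R => ?_) (fun v => ?_) h1)
      · rw [consBq, consBq]; simp only; omega
      · simp only [hp]; omega
    · refine Or.inr (ob_sym hQ0 hm (fun v => by ext <;> simp) (z' := (z.1, -z.2)) (r' := 0)
        (fun v R => ?_) (fun v => ?_) h1)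
      · rw [consBq, consBq]; simp only; omega
      · simp only [hp]; omega
  have s3 : ∀ (z : ℤ × ℤ) (d R : ℤ), 1 ≤ d → d + 2 ≤ R →
      OB Q 3 false z d R (P d R) ∨ OB Q 3 false z d R (P (d + 1) (R - 1)) := by
    intro z d R hd hR
    have hm : (fun v : ℤ × ℤ => (v.2, v.1)) ∈ syms := by simp [syms]
    rcases s1 (z.2, z.1) d R hd hR with h1 | h1
    · refine Or.inl (ob_sym hQ0 hm (fun v => rfl) (z' := (z.2, z.1)) (r' := 0)
        (fun v R => ?_) (fun v => ?_) h1)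
      · rw [consBq, consBq]; simp only; omega
      · simp only [hp]
    · refine Or.inr (ob_sym hQ0 hm (fun v => rfl) (z' := (z.2, z.1)) (r' := 0)
        (fun v R => ?_) (fun v => ?_) h1)
      · rw [consBq, consBq]; simp only; omega
      · simp only [hp]
  have s4 : ∀ (z : ℤ × ℤ) (d R : ℤ), 1 ≤ d → d + 2 ≤ R →
      OB Q 1 false z d R (P d R) ∨ OB Q 1 false z d R (P (d + 1) (R - 1)) := by
    intro z d R hd hR
    have hm : (fun v : ℤ × ℤ => (-1 - v.1, v.2)) ∈ syms := by simp [syms]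
    rcases s3 (-z.1, z.2) d R hd hR with h1 | h1
    · refine Or.inl (ob_sym hQ0 hm (fun v => by ext <;> simp) (z' := (-z.1, z.2)) (r' := 3)
        (fun v R => ?_) (fun v => ?_) h1)
      · rw [consBq, consBq]; simp only; omega
      · simp only [hp]; omega
    · refine Or.inr (ob_sym hQ0 hm (fun v => by ext <;> simp) (z' := (-z.1, z.2)) (r' := 3)
        (fun v R => ?_) (fun v => ?_) h1)
      · rw [consBq, consBq]; simp only; omega
      · simp only [hp]; omega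
  have s5 : ∀ (r : Fin 4) (z : ℤ × ℤ) (d R : ℤ), 1 ≤ d → d + 2 ≤ R →
      OB Q r false z d R (P d R) ∨ OB Q r false z d R (P (d + 1) (R - 1)) := by
    intro r
    fin_cases r
    · exact s1
    · exact s4
    · exact s2
    · exact s3
  intro r b z d R hd hR
  cases b with
  | false => exact s5 r z d R hd hR
  | true =>
    rcases s5 r (shi z) d R hd hR with h1 | h1
    · exact Or.inl (ob_dual hQ0 h1)
    · exact Or.inr (ob_dual hQ0 h1)

/-! ### Consequences for a single side -/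

theorem Side.self {r : Fin 4} {b : Bool} {D : Finset (ℤ × ℤ)} {η : Cfg} {z : ℤ × ℤ} {R : ℤ}
    (h : Side r b D η z R) (S : Finset (ℤ × ℤ)) : Side r b (HS r z R) (cf D η S) z R := by
  refine ⟨Finset.Subset.refl _, fun v hv hv' => ⟨fun h' => hv' (mem_HS.1 h').2, ?_⟩⟩
  obtain ⟨h1, h2⟩ := h.out v hv hv'
  rw [cf_out h1]
  exact h2

theorem Side.mono {r : Fin 4} {b : Bool} {D : Finset (ℤ × ℤ)} {η : Cfg} {z : ℤ × ℤ} {R R' : ℤ}
    (h : Side r b D η z R) (hR : R' ≤ R) : Side r b D η z R' := by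
  refine ⟨(HS_mono r z hR).trans h.sub, fun v hv hv' => h.out v ?_ hv'⟩
  rw [consBq] at *
  omega

theorem Loc.sub_left {A : Finset (ℤ × ℤ)} {F : Cfg → ℝ} (hF : Loc A F) (M : ℝ) :
    Loc A fun ω => M - F ω := fun ω ω' h => by
  show M - F ω = M - F ω'
  rw [hF ω ω' h]

/-- Two domains, `0 ≤ F ≤ M`. -/
theorem ob_tv0 (hQ0 : 0 < Q) {r : Fin 4} {b : Bool} {z : ℤ × ℤ} {d R : ℤ} {ε : ℝ}
    (h : OB Q r b z d R fun x y => (1 - ε) * x ≤ y) {D D' : Finset (ℤ × ℤ)} {η η' : Cfg}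
    (hS : Side r b D η z R) (hS' : Side r b D' η' z R) (hη : Good η) (hη' : Good η')
    {F : Cfg → ℝ} (hF : Loc (HS r z d) F) (h0 : ∀ ω, 0 ≤ F ω) {M : ℝ} (hM : ∀ ω, F ω ≤ M) :
    |Ex Q D η F - Ex Q D' η' F| ≤ ε * M := by
  obtain ⟨D0, η0, hη0, h⟩ := h
  have key : ∀ {D : Finset (ℤ × ℤ)} {η : Cfg}, Side r b D η z R → Good η →
      (1 - ε) * Ex Q D0 η0 F ≤ Ex Q D η F ∧ Ex Q D η F ≤ (1 - ε) * Ex Q D0 η0 F + ε * M := by
    intro D η hS hη
    have h1 := h D η hS hη F hF h0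
    have h2 := h D η hS hη (fun ω => M - F ω) (Loc.sub_left hF M) fun ω => by
      have := hM ω
      linarith
    simp only [Ex_sub, Ex_const hQ0] at h2
    exact ⟨h1, by nlinarith⟩
  obtain ⟨a1, a2⟩ := key hS hη
  obtain ⟨b1, b2⟩ := key hS' hη'
  rw [abs_le]
  constructor <;> linarith

/-- Two domains, `|F| ≤ M`. -/
theorem ob_tv (hQ0 : 0 < Q) {r : Fin 4} {b : Bool} {z : ℤ × ℤ} {d R : ℤ} {ε : ℝ}
    (h : OB Q r b z d R fun x y => (1 - ε) * x ≤ y) {D D' : Finset (ℤ × ℤ)} {η η' : Cfg}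
    (hS : Side r b D η z R) (hS' : Side r b D' η' z R) (hη : Good η) (hη' : Good η')
    {F : Cfg → ℝ} (hF : Loc (HS r z d) F) {M : ℝ} (hM : ∀ ω, |F ω| ≤ M) :
    |Ex Q D η F - Ex Q D' η' F| ≤ 2 * ε * M := by
  have h1 := ob_tv0 hQ0 h hS hS' hη hη' (F := fun ω => M - F ω) (Loc.sub_left hF M)
    (fun ω => by have := (abs_le.1 (hM ω)).2; linarith) (M := 2 * M)
    (fun ω => by have := (abs_le.1 (hM ω)).1; linarith)
  simp only [Ex_sub, Ex_const hQ0] at h1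
  rw [abs_sub_comm] at h1
  calc _ = |M - Ex Q D' η' F - (M - Ex Q D η F)| := by congr 1; ring
    _ ≤ _ := h1
    _ = _ := by ring

/-- Covariance, from a bound for all pairs of domains. -/
theorem cov_of (hQ0 : 0 < Q) {r : Fin 4} {b : Bool} {z : ℤ × ℤ} {R : ℤ} {a : ℝ}
    {D : Finset (ℤ × ℤ)} {η : Cfg} (hS : Side r b D η z R) (hη : Good η) {F : Cfg → ℝ}
    (h : ∀ (D' : Finset (ℤ × ℤ)) (η' : Cfg), Side r b D' η' z R → Good η' →
      |Ex Q D η F - Ex Q D' η' F| ≤ a) {X : Cfg → ℝ} (hX : Ind (HS r z R) X) :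
    |Ex Q D η (fun ω => F ω * X ω) - Ex Q D η F * Ex Q D η X| ≤ a * Ex Q D η (fun ω => |X ω|) := by
  have e1 : Ex Q D η (fun ω => F ω * X ω) =
      Ex Q D η (fun ω => X ω * Ex Q (HS r z R) ω F) := by
    rw [← markov f_markov hQ0 hS.sub hη hX]
    exact Ex_congr fun S _ => mul_comm _ _
  have e2 : Ex Q D η (fun ω => F ω * X ω) - Ex Q D η F * Ex Q D η X =
      Ex Q D η (fun ω => X ω * (Ex Q (HS r z R) ω F - Ex Q D η F)) := by
    rw [e1, ← Ex_mul_left, ← Ex_sub]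
    exact Ex_congr fun S _ => by ring
  rw [e2, ← Ex_mul_left]
  refine (abs_Ex_le hQ0 _).trans (Ex_mono hQ0 fun S _ => ?_)
  rw [abs_mul, mul_comm a]
  refine mul_le_mul_of_nonneg_left ?_ (abs_nonneg _)
  rw [abs_sub_comm]
  exact h _ _ (hS.self S) (f_good.1 D η S hη)

/-! ### The base case -/

theorem Cl_eq_BT (B : Finset (ℤ × ℤ)) : Cl B = BT B ∅ := by
  ext ω
  simp only [Cl, BT, Set.mem_ofPred_eq, Finset.notMem_empty, decide_false]

/-- All the squares of `S` are open. -/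
def Opn (S : Finset (ℤ × ℤ)) : Set Cfg := {ω | ∀ v ∈ S, ω v = true}

theorem Opn_eq_BT (B : Finset (ℤ × ℤ)) : Opn B = BT B B := by
  ext ω
  simp only [Opn, BT, Set.mem_ofPred_eq]
  constructor
  · intro h v hv
    rw [h v hv]
    simp [hv]
  · intro h v hv
    rw [h v hv]
    simp [hv]

theorem dom_out {D : Finset (ℤ × ℤ)} {η η' : Cfg} (h : ∀ v, v ∉ D → η v = true → η' v = true) :
    Dom D η η' := by
  intro S _ a _ _ hp
  refine PC_mono (fun v hv => ?_) hp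
  by_cases hD : v ∈ D
  · rw [cf_in hD] at hv ⊢
    exact hv
  · rw [cf_out hD] at hv ⊢
    exact h v hD hv

theorem le_ow {z : ℤ × ℤ} {R : ℤ} {η : Cfg} (h : ∀ v ∈ Bq z R, ¬ hp 0 z v → η v = false) :
    ∀ v, v ∉ HB z R → η v = true → ow z R v = true := by
  intro v hv hvt
  by_cases h1 : v ∈ Bq z R
  · have h2 : ¬ hp 0 z v := fun h3 => hv (consHB.2 ⟨h1, h3⟩)
    rw [h v h1 h2] at hvt
    exact absurd hvt (by simp)
  · unfold ow
    rw [cf_out h1]
    rfl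

/-- The base case of the total variation form. -/
theorem ob_base (hQ : 1 ≤ Q) {z : ℤ × ℤ} {d R : ℤ} {ε : ℝ} (hdR : d ≤ R) (hε : 0 ≤ ε)
    (h : (1 - ε) * p0 Q z d R ≤ p1 Q z d R) :
    OB Q 0 false z d R fun x y => (1 - ε) * x ≤ y := by
  have hQ0 : 0 < Q := by linarith
  refine ⟨HB z R, eta0, f_good.2.1, fun D η hS hη F hF h0 => ?_⟩
  rw [HS_zero] at hF
  have hsub : HB z d ⊆ HB z R := by rw [← HS_zero, ← HS_zero]; exact HS_mono 0 z hdR
  have hHD : HB z R ⊆ D := by rw [← HS_zero]; exact hS.sub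
  rw [f_markov Q (HB z R) D η F hQ0 hHD hη,
    ← Ex_const (Q := Q) (D := D) (η := η) hQ0 ((1 - ε) * Ex Q (HB z R) eta0 F)]
  refine Ex_mono hQ0 fun S _ => ?_
  have hS' := hS.self S
  set ω := cf D η S with hω
  have hωg : Good ω := f_good.1 D η S hη
  refine tv_le hQ f_good.2.1 hωg (dom_out fun v _ hv => by simp [eta0] at hv) hsub hε ?_ hF h0
  rw [← Cl_eq_BT]
  refine h.trans ?_
  have h1 := comp_out (D := HB z R) hQ (dec_Cl (HB z d)).incF hωg
    (f_good.1 (Bq z R) eta1 ∅ f_good.2.2) (le_ow (R := R) (η := ω) fun v hv hv' => (hS'.out v hv hv').2)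
  rw [Ex_neg, Ex_neg] at h1
  exact neg_le_neg_iff.1 h1

/-- The base case of the relative form. -/
theorem ob_base2 (hQ : 1 ≤ Q) {z : ℤ × ℤ} {d R : ℤ} {ε : ℝ} (hdR : d ≤ R) (hε : 0 ≤ ε)
    (h : BI Q (HB z R) eta0 (ow z R) (HB z d) ε) :
    OB Q 0 false z d R fun x y => (1 - ε) * x ≤ y ∧ y ≤ (1 + ε) * x := by
  have hQ0 : 0 < Q := by linarith
  refine ⟨HB z R, eta0, f_good.2.1, fun D η hS hη F hF h0 => ?_⟩
  rw [HS_zero] at hF
  have hsub : HB z d ⊆ HB z R := by rw [← HS_zero, ← HS_zero]; exact HS_mono 0 z hdR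
  have hHD : HB z R ⊆ D := by rw [← HS_zero]; exact hS.sub
  have key : ∀ S, (1 - ε) * Ex Q (HB z R) eta0 F ≤ Ex Q (HB z R) (cf D η S) F ∧
      Ex Q (HB z R) (cf D η S) F ≤ (1 + ε) * Ex Q (HB z R) eta0 F := by
    intro S
    have hS' := hS.self S
    set ω := cf D η S with hω
    have hωg : Good ω := f_good.1 D η S hη
    have hd1 : Dom (HB z R) eta0 ω := dom_out fun v _ hv => by simp [eta0] at hv
    have h2 : BI Q (HB z R) eta0 ω (HB z d) ε := h.mono hQ f_good.2.1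
      (f_good.1 (Bq z R) eta1 ∅ f_good.2.2) f_good.2.1 hωg Dom.refl
      (dom_out (le_ow (R := R) (η := ω) fun v hv hv' => (hS'.out v hv hv').2)) hsub hε
    obtain ⟨h3, h4⟩ := h2.ex_le hQ f_good.2.1 hωg hd1 hsub hF h0
    refine ⟨?_, h4⟩
    have h5 : 0 ≤ Ex Q (HB z R) ω F := Ex_nonneg hQ0 fun S _ => h0 _
    have h6 : 0 ≤ Ex Q (HB z R) eta0 F := Ex_nonneg hQ0 fun S _ => h0 _
    rcases le_total ε 1 with h7 | h7
    · calc (1 - ε) * Ex Q (HB z R) eta0 F ≤ (1 - ε) * ((1 + ε) * Ex Q (HB z R) ω F) :=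
            mul_le_mul_of_nonneg_left h3 (by linarith)
        _ = (1 - ε ^ 2) * Ex Q (HB z R) ω F := by ring
        _ ≤ 1 * Ex Q (HB z R) ω F := mul_le_mul_of_nonneg_right (by nlinarith [sq_nonneg ε]) h5
        _ = _ := one_mul _
    · nlinarith
  rw [f_markov Q (HB z R) D η F hQ0 hHD hη]
  constructor
  · rw [← Ex_const (Q := Q) (D := D) (η := η) hQ0 ((1 - ε) * Ex Q (HB z R) eta0 F)]
    exact Ex_mono hQ0 fun S _ => (key S).1
  · rw [← Ex_const (Q := Q) (D := D) (η := η) hQ0 ((1 + ε) * Ex Q (HB z R) eta0 F)]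
    exact Ex_mono hQ0 fun S _ => (key S).2

/-! ### The theorems -/

theorem quot_le {d R : ℤ} (hd : 1 ≤ d) (hR : d + 2 ≤ R) {c : ℝ} (hc : 0 < c) :
    (((d + 1 : ℤ) : ℝ) / ((R - 1 : ℤ) : ℝ)) ^ (1 + c) ≤
      (4 : ℝ) ^ (1 + c) * ((d : ℝ) / R) ^ (1 + c) := by
  have hd' : (1 : ℝ) ≤ d := by exact_mod_cast hd
  have hR' : (d : ℝ) + 2 ≤ R := by exact_mod_cast hR
  have h1 : ((d + 1 : ℤ) : ℝ) / ((R - 1 : ℤ) : ℝ) ≤ 4 * ((d : ℝ) / R) := by
    push_cast
    rw [mul_div_assoc', div_le_div_iff₀ (by linarith) (by linarith)]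
    nlinarith
  have h2 : 0 ≤ ((d + 1 : ℤ) : ℝ) / ((R - 1 : ℤ) : ℝ) := by
    push_cast
    exact div_nonneg (by linarith) (by linarith)
  calc _ ≤ (4 * ((d : ℝ) / R)) ^ (1 + c) := Real.rpow_le_rpow h2 h1 (by linarith)
    _ = _ := Real.mul_rpow (by norm_num) (div_nonneg (by linarith) (by linarith))

/-- **MIX > 1**, total variation form: all flat sides, all domains. -/
theorem tv_all (hQ : 1 ≤ Q) (h : MIX1 Q) : ∃ c C : ℝ, 0 < c ∧ 0 < C ∧
    ∀ (r : Fin 4) (b : Bool) (z : ℤ × ℤ) (d R : ℤ), 1 ≤ d → d ≤ R →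
    ∀ (D : Finset (ℤ × ℤ)) (η : Cfg), Side r b D η z R → Good η →
    ∀ F : Cfg → ℝ, Loc (HS r z d) F → ∀ M : ℝ, (∀ ω, |F ω| ≤ M) →
      (∀ (D' : Finset (ℤ × ℤ)) (η' : Cfg), Side r b D' η' z R → Good η' →
        |Ex Q D η F - Ex Q D' η' F| ≤ C * ((d : ℝ) / R) ^ (1 + c) * M) ∧
      (∀ X : Cfg → ℝ, Ind (HS r z R) X →
        |Ex Q D η (fun ω => F ω * X ω) - Ex Q D η F * Ex Q D η X| ≤
          C * ((d : ℝ) / R) ^ (1 + c) * M * Ex Q D η (fun ω => |X ω|)) := by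
  have hQ0 : 0 < Q := by linarith
  obtain ⟨c, C, hc, hC, h⟩ := h
  have h4 : (0 : ℝ) < 4 ^ (1 + c) := Real.rpow_pos_of_pos (by norm_num) _
  have h41 : (1 : ℝ) ≤ 4 ^ (1 + c) := Real.one_le_rpow (by norm_num) (by linarith)
  have h3 : (0 : ℝ) < 3 ^ (1 + c) := Real.rpow_pos_of_pos (by norm_num) _
  refine ⟨c, 2 * C * 4 ^ (1 + c) + 2 * 3 ^ (1 + c), hc, by positivity, ?_⟩
  intro r b z d R hd hdR D η hS hη F hF M hM
  have hd' : (1 : ℝ) ≤ d := by exact_mod_cast hd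
  have hR' : (d : ℝ) ≤ R := by exact_mod_cast hdR
  have hM0 : 0 ≤ M := (abs_nonneg _).trans (hM eta0)
  have hx0 : 0 < ((d : ℝ) / R) ^ (1 + c) :=
    Real.rpow_pos_of_pos (div_pos (by linarith) (by linarith)) _
  have key : ∀ (D' : Finset (ℤ × ℤ)) (η' : Cfg), Side r b D' η' z R → Good η' →
      |Ex Q D η F - Ex Q D' η' F| ≤
        (2 * C * 4 ^ (1 + c) + 2 * 3 ^ (1 + c)) * ((d : ℝ) / R) ^ (1 + c) * M := by
    intro D' η' hS' hη'
    by_cases hR : d + 2 ≤ R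
    · have ha := ob_all hQ0 (Q := Q) (P := fun d R x y =>
        (1 - C * ((d : ℝ) / R) ^ (1 + c)) * x ≤ y) (fun z d R hz hd hdR =>
          ob_base hQ hdR (by
            have hd' : (1 : ℝ) ≤ d := by exact_mod_cast hd
            have hR' : (d : ℝ) ≤ R := by exact_mod_cast hdR
            exact mul_nonneg hC.le (Real.rpow_nonneg (div_nonneg (by linarith) (by linarith)) _))
            (h z d R hz hd hdR)) r b z d R hd hR
      rcases ha with ha | ha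
      · refine (ob_tv hQ0 ha hS hS' hη hη' hF hM).trans ?_
        refine mul_le_mul_of_nonneg_right ?_ hM0
        nlinarith [mul_pos hC hx0, mul_pos h3 hx0, mul_pos (mul_pos hC hx0) h4,
          mul_le_mul_of_nonneg_left h41 (mul_pos hC hx0).le]
      · refine (ob_tv hQ0 ha hS hS' hη hη' hF hM).trans ?_
        refine mul_le_mul_of_nonneg_right ?_ hM0
        have h5 := mul_le_mul_of_nonneg_left (quot_le hd hR hc) hC.le
        nlinarith [mul_pos h3 hx0]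
    · have h6 : (1 : ℝ) ≤ 3 ^ (1 + c) * ((d : ℝ) / R) ^ (1 + c) := by
        rw [← Real.mul_rpow (by norm_num) (div_nonneg (by linarith) (by linarith))]
        refine Real.one_le_rpow ?_ (by linarith)
        have h7 : R ≤ d + 1 := by omega
        have h8 : (R : ℝ) ≤ d + 1 := by exact_mod_cast h7
        rw [mul_div_assoc', le_div_iff₀ (by linarith)]
        linarith
      have e1 : ∀ {D : Finset (ℤ × ℤ)} {η : Cfg}, |Ex Q D η F| ≤ M := by
        intro D η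
        refine (abs_Ex_le hQ0 F).trans ?_
        rw [← Ex_const (Q := Q) (D := D) (η := η) hQ0 M]
        exact Ex_mono hQ0 fun S _ => hM _
      have e2 : |Ex Q D η F - Ex Q D' η' F| ≤ 2 * M := by
        have h9 := abs_sub (Ex Q D η F) (Ex Q D' η' F)
        have h10 := e1 (D := D) (η := η)
        have h11 := e1 (D := D') (η := η')
        linarith
      refine e2.trans (mul_le_mul_of_nonneg_right ?_ hM0)
      nlinarith [mul_pos (mul_pos hC h4) hx0]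
  exact ⟨key, fun X hX => cov_of hQ0 hS hη key hX⟩

/-- The companion of `MIX1` for open blocks (proved with a bump of the domain). -/
def MIX2 (Q : ℝ) : Prop := ∃ (K : ℤ) (c C : ℝ), 1 ≤ K ∧ 0 < c ∧ 0 < C ∧ ∀ (z : ℤ × ℤ) (d R : ℤ),
  Even (z.1 + z.2) → 1 ≤ d → K * d ≤ R →
    Pr Q (HB z R) (ow z R) (Opn (HB z d)) ≤
      (1 + C * ((d : ℝ) / R) ^ (1 + c)) * Pr Q (HB z R) eta0 (Opn (HB z d))

theorem bi_of {z : ℤ × ℤ} {d R : ℤ} {ε : ℝ} (hε : 0 ≤ ε) (hε2 : ε ≤ 1 / 2) (hQ0 : 0 < Q)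
    (h1 : (1 - ε) * p0 Q z d R ≤ p1 Q z d R)
    (h2 : Pr Q (HB z R) (ow z R) (Opn (HB z d)) ≤ (1 + ε) * Pr Q (HB z R) eta0 (Opn (HB z d))) :
    BI Q (HB z R) eta0 (ow z R) (HB z d) (2 * ε) := by
  rw [Opn_eq_BT] at h2
  unfold p0 p1 at h1
  rw [Cl_eq_BT] at h1
  have e1 := Pr_nonneg (Q := Q) (D := HB z R) (η := ow z R) hQ0 (BT (HB z d) ∅)
  have e2 := Pr_nonneg (Q := Q) (D := HB z R) (η := eta0) hQ0 (BT (HB z d) (HB z d))
  have e3 := Pr_nonneg (Q := Q) (D := HB z R) (η := eta0) hQ0 (BT (HB z d) ∅)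
  refine ⟨?_, ?_⟩
  · have h3 : (1 + 2 * ε) * ((1 - ε) * Pr Q (HB z R) eta0 (BT (HB z d) ∅)) ≤
        (1 + 2 * ε) * Pr Q (HB z R) (ow z R) (BT (HB z d) ∅) :=
      mul_le_mul_of_nonneg_left h1 (by linarith)
    refine le_trans ?_ h3
    have h4 : 1 ≤ (1 + 2 * ε) * (1 - ε) := by nlinarith
    calc _ = 1 * Pr Q (HB z R) eta0 (BT (HB z d) ∅) := (one_mul _).symm
      _ ≤ (1 + 2 * ε) * (1 - ε) * Pr Q (HB z R) eta0 (BT (HB z d) ∅) :=
        mul_le_mul_of_nonneg_right h4 e3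
      _ = _ := by ring
  · refine h2.trans (mul_le_mul_of_nonneg_right (by linarith) e2)

/-- Relative comparison of two domains. -/
theorem ob_rel (hQ0 : 0 < Q) {r : Fin 4} {b : Bool} {z : ℤ × ℤ} {d R : ℤ} {ε : ℝ} (hε : 0 ≤ ε)
    (hε2 : ε ≤ 1 / 2) (h : OB Q r b z d R fun x y => (1 - ε) * x ≤ y ∧ y ≤ (1 + ε) * x)
    {D D' : Finset (ℤ × ℤ)} {η η' : Cfg}
    (hS : Side r b D η z R) (hS' : Side r b D' η' z R) (hη : Good η) (hη' : Good η')
    {F : Cfg → ℝ} (hF : Loc (HS r z d) F) :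
    |Ex Q D η F - Ex Q D' η' F| ≤ 4 * ε * Ex Q D η (fun ω => |F ω|) := by
  obtain ⟨D0, η0, hη0, h⟩ := h
  have l1 : Loc (HS r z d) fun ω => |F ω| := fun ω ω' h => by
    show |F ω| = |F ω'|
    rw [hF ω ω' h]
  have l2 : Loc (HS r z d) fun ω => |F ω| + F ω := fun ω ω' h => by
    show |F ω| + F ω = |F ω'| + F ω'
    rw [hF ω ω' h]
  have l3 : Loc (HS r z d) fun ω => |F ω| - F ω := fun ω ω' h => by
    show |F ω| - F ω = |F ω'| - F ω'
    rw [hF ω ω' h]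
  have key : ∀ {D : Finset (ℤ × ℤ)} {η : Cfg}, Side r b D η z R → Good η →
      |Ex Q D η F - Ex Q D0 η0 F| ≤ ε * Ex Q D0 η0 (fun ω => |F ω|) := by
    intro D η hS hη
    have h1 := h D η hS hη _ l2 fun ω => by have := neg_abs_le (F ω); linarith
    have h2 := h D η hS hη _ l3 fun ω => by have := le_abs_self (F ω); linarith
    simp only [Ex_sub, Ex_add] at h1 h2
    rw [abs_le]
    constructor <;> nlinarith [h1.1, h1.2, h2.1, h2.2]
  have h5 := key hS hη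
  have h6 := key hS' hη'
  have h7 := (h D η hS hη _ l1 fun ω => abs_nonneg _).1
  have h8 : Ex Q D0 η0 (fun ω => |F ω|) ≤ 2 * Ex Q D η (fun ω => |F ω|) := by
    have h9 : 0 ≤ Ex Q D0 η0 (fun ω => |F ω|) := Ex_nonneg hQ0 fun S _ => abs_nonneg _
    nlinarith
  calc _ = |(Ex Q D η F - Ex Q D0 η0 F) - (Ex Q D' η' F - Ex Q D0 η0 F)| := by congr 1; ring
    _ ≤ |Ex Q D η F - Ex Q D0 η0 F| + |Ex Q D' η' F - Ex Q D0 η0 F| := abs_sub _ _
    _ ≤ ε * Ex Q D0 η0 (fun ω => |F ω|) + ε * Ex Q D0 η0 (fun ω => |F ω|) := add_le_add h5 h6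
    _ = 2 * ε * Ex Q D0 η0 (fun ω => |F ω|) := by ring
    _ ≤ 2 * ε * (2 * Ex Q D η (fun ω => |F ω|)) :=
      mul_le_mul_of_nonneg_left h8 (by linarith)
    _ = _ := by ring

/-- **MIX > 1**, relative form: all flat sides, all domains. -/
theorem rel_all (hQ : 1 ≤ Q) (h1 : MIX1 Q) (h2 : MIX2 Q) : ∃ (K : ℤ) (c C : ℝ), 1 ≤ K ∧ 0 < c ∧
    0 < C ∧ ∀ (r : Fin 4) (b : Bool) (z : ℤ × ℤ) (d R : ℤ), 1 ≤ d → K * d ≤ R →
    ∀ (D : Finset (ℤ × ℤ)) (η : Cfg), Side r b D η z R → Good η →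
    ∀ F : Cfg → ℝ, Loc (HS r z d) F →
      (∀ (D' : Finset (ℤ × ℤ)) (η' : Cfg), Side r b D' η' z R → Good η' →
        |Ex Q D η F - Ex Q D' η' F| ≤ C * ((d : ℝ) / R) ^ (1 + c) * Ex Q D η (fun ω => |F ω|)) ∧
      (∀ X : Cfg → ℝ, Ind (HS r z R) X →
        |Ex Q D η (fun ω => F ω * X ω) - Ex Q D η F * Ex Q D η X| ≤
          C * ((d : ℝ) / R) ^ (1 + c) * Ex Q D η (fun ω => |F ω|) *
            Ex Q D η (fun ω => |X ω|)) := by
  have hQ0 : 0 < Q := by linarith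
  obtain ⟨c1, C1, hc1, hC1, h1⟩ := h1
  obtain ⟨K2, c2, C2, hK2, hc2, hC2, h2⟩ := h2
  set c : ℝ := min c1 c2 with hc
  set C : ℝ := max C1 C2 with hC
  have hc0 : 0 < c := lt_min hc1 hc2
  have hC0 : 0 < C := lt_of_lt_of_le hC1 (le_max_left _ _)
  -- the bounds with common constants
  have mono : ∀ {d R : ℤ} {c' C' : ℝ}, 1 ≤ d → d ≤ R → c ≤ c' → 0 < C' → C' ≤ C →
      C' * ((d : ℝ) / R) ^ (1 + c') ≤ C * ((d : ℝ) / R) ^ (1 + c) := by
    intro d R c' C' hd hdR hcc hC0' hCC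
    have hd' : (1 : ℝ) ≤ d := by exact_mod_cast hd
    have hR' : (d : ℝ) ≤ R := by exact_mod_cast hdR
    have hx : 0 < (d : ℝ) / R := div_pos (by linarith) (by linarith)
    have hx1 : (d : ℝ) / R ≤ 1 := div_le_one_of_le₀ hR' (by linarith)
    calc C' * ((d : ℝ) / R) ^ (1 + c') ≤ C * ((d : ℝ) / R) ^ (1 + c') :=
          mul_le_mul_of_nonneg_right hCC (Real.rpow_nonneg hx.le _)
      _ ≤ _ := mul_le_mul_of_nonneg_left
          (Real.rpow_le_rpow_of_exponent_ge hx hx1 (by linarith)) hC0.le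
  -- the relative form for small `d / R`
  obtain ⟨K, hK2', hK⟩ : ∃ K : ℤ, K2 ≤ K ∧ 4 * C ≤ K := by
    refine ⟨max K2 ⌈4 * C⌉, le_max_left _ _, ?_⟩
    have := Int.le_ceil (4 * C)
    have h3 : (⌈4 * C⌉ : ℝ) ≤ ((max K2 ⌈4 * C⌉ : ℤ) : ℝ) := by exact_mod_cast le_max_right _ _
    linarith
  have hK1 : 1 ≤ K := hK2.trans hK2'
  have hK1' : (1 : ℝ) ≤ K := by exact_mod_cast hK1
  have small : ∀ {d R : ℤ}, 1 ≤ d → K * d ≤ R → C * ((d : ℝ) / R) ^ (1 + c) ≤ 1 / 4 := by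
    intro d R hd hdR
    have hd' : (1 : ℝ) ≤ d := by exact_mod_cast hd
    have hR' : (K : ℝ) * d ≤ R := by exact_mod_cast hdR
    have hR0 : (0 : ℝ) < R := by nlinarith
    have hx : 0 < (d : ℝ) / R := div_pos (by linarith) hR0
    have hx1 : (d : ℝ) / R ≤ 1 / K := by
      rw [div_le_div_iff₀ hR0 (by linarith)]
      linarith
    have hx2 : (d : ℝ) / R ≤ 1 := hx1.trans (by
      rw [div_le_one (by linarith)]
      exact hK1')
    have h3 : ((d : ℝ) / R) ^ (1 + c) ≤ (d : ℝ) / R := by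
      calc _ ≤ ((d : ℝ) / R) ^ (1 : ℝ) := Real.rpow_le_rpow_of_exponent_ge hx hx2 (by linarith)
        _ = _ := Real.rpow_one _
    calc _ ≤ C * (1 / K) := mul_le_mul_of_nonneg_left (h3.trans hx1) hC0.le
      _ = C / K := by ring
      _ ≤ 1 / 4 := by
        rw [div_le_div_iff₀ (by linarith) (by norm_num)]
        linarith
  have base : ∀ (z : ℤ × ℤ) (d R : ℤ), Even (z.1 + z.2) → 1 ≤ d → K * d ≤ R →
      OB Q 0 false z d R fun x y => (1 - 2 * (C * ((d : ℝ) / R) ^ (1 + c))) * x ≤ y ∧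
        y ≤ (1 + 2 * (C * ((d : ℝ) / R) ^ (1 + c))) * x := by
    intro z d R hz hd hKd
    have hdR : d ≤ R := by nlinarith
    have hd' : (1 : ℝ) ≤ d := by exact_mod_cast hd
    have hR' : (d : ℝ) ≤ R := by exact_mod_cast hdR
    have hx0 : 0 ≤ C * ((d : ℝ) / R) ^ (1 + c) :=
      mul_nonneg hC0.le (Real.rpow_nonneg (div_nonneg (by linarith) (by linarith)) _)
    refine ob_base2 hQ hdR (by linarith) (bi_of hx0 ((small hd hKd).trans
      (by norm_num)) hQ0 ?_ ?_)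
    · refine le_trans ?_ (h1 z d R hz hd hdR)
      refine mul_le_mul_of_nonneg_right ?_ (Pr_nonneg hQ0 _)
      have := mono (c' := c1) (C' := C1) hd hdR (min_le_left _ _) hC1 (le_max_left _ _)
      linarith
    · refine (h2 z d R hz hd (by nlinarith)).trans ?_
      refine mul_le_mul_of_nonneg_right ?_ (Pr_nonneg hQ0 _)
      have := mono (c' := c2) (C' := C2) hd hdR (min_le_right _ _) hC2 (le_max_right _ _)
      linarith
  have h4 : (0 : ℝ) < 4 ^ (1 + c) := Real.rpow_pos_of_pos (by norm_num) _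
  have h41 : (1 : ℝ) ≤ 4 ^ (1 + c) := Real.one_le_rpow (by norm_num) (by linarith)
  refine ⟨8 * K, c, 8 * C * 4 ^ (1 + c), by omega, hc0, by positivity, ?_⟩
  intro r b z d R hd hKd D η hS hη F hF
  have hKdR : K * d ≤ R := by nlinarith
  have hKd' : K * (d + 1) ≤ R - 1 := by nlinarith
  have hdR : d + 2 ≤ R := by nlinarith
  have hd' : (1 : ℝ) ≤ d := by exact_mod_cast hd
  have hR' : (d : ℝ) + 2 ≤ R := by exact_mod_cast hdR
  have hx0 : 0 < ((d : ℝ) / R) ^ (1 + c) :=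
    Real.rpow_pos_of_pos (div_pos (by linarith) (by linarith)) _
  have key : ∀ (D' : Finset (ℤ × ℤ)) (η' : Cfg), Side r b D' η' z R → Good η' →
      |Ex Q D η F - Ex Q D' η' F| ≤
        8 * C * 4 ^ (1 + c) * ((d : ℝ) / R) ^ (1 + c) * Ex Q D η (fun ω => |F ω|) := by
    intro D' η' hS' hη'
    have hF0 : 0 ≤ Ex Q D η (fun ω => |F ω|) := Ex_nonneg hQ0 fun S _ => abs_nonneg _
    have ha := ob_all hQ0 (Q := Q) (P := fun d R x y => K * d ≤ R →
      (1 - 2 * (C * ((d : ℝ) / R) ^ (1 + c))) * x ≤ y ∧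
        y ≤ (1 + 2 * (C * ((d : ℝ) / R) ^ (1 + c))) * x) (fun z d R hz hd hdR => by
          by_cases hk : K * d ≤ R
          · obtain ⟨D0, η0, hη0, h⟩ := base z d R hz hd hk
            exact ⟨D0, η0, hη0, fun D η hS hη F hF h0 _ => h D η hS hη F hF h0⟩
          · exact ⟨∅, eta0, f_good.2.1, fun D η hS hη F hF h0 h' => absurd h' hk⟩) r b z d R hd hdR
    rcases ha with ⟨D0, η0, hη0, ha⟩ | ⟨D0, η0, hη0, ha⟩
    · have h5 := small hd hKdR
      refine (ob_rel hQ0 (ε := 2 * (C * ((d : ℝ) / R) ^ (1 + c))) (by positivity) (by linarith)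
        ⟨D0, η0, hη0, fun D η hS hη F hF h0 => ha D η hS hη F hF h0 hKdR⟩ hS hS' hη hη' hF).trans ?_
      refine mul_le_mul_of_nonneg_right ?_ hF0
      nlinarith [mul_le_mul_of_nonneg_left h41 (mul_pos hC0 hx0).le]
    · have h5 := small (by omega) hKd'
      have h6 : 0 ≤ ((d + 1 : ℤ) : ℝ) / ((R - 1 : ℤ) : ℝ) := by
        push_cast
        exact div_nonneg (by linarith) (by linarith)
      refine (ob_rel hQ0 (ε := 2 * (C * (((d + 1 : ℤ) : ℝ) / ((R - 1 : ℤ) : ℝ)) ^ (1 + c)))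
        (mul_nonneg (by norm_num) (mul_nonneg hC0.le (Real.rpow_nonneg h6 _))) (by linarith)
        ⟨D0, η0, hη0, fun D η hS hη F hF h0 => ha D η hS hη F hF h0 hKd'⟩ hS hS' hη hη' hF).trans ?_
      refine mul_le_mul_of_nonneg_right ?_ hF0
      have h7 := mul_le_mul_of_nonneg_left (quot_le hd hdR hc0) hC0.le
      nlinarith
  refine ⟨key, fun X hX => ?_⟩
  exact cov_of hQ0 hS hη key hX

end Vale.Agent.P167.QM
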