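import Vale.Agent.P167.QM.Defs

/-!
# P167, general `q`, block Q-MIX1: the arm bounds `M_ARM` from strong RSW
-/

namespace Vale.Agent.P167.QM

open Finset Vale.Agent.P167.FK Vale.Agent.P167.FKA Relation
open Vale.Agent.P145.FB (PStep PConn)
open Vale.Agent.P167.H259 (f_markov f_fkg f_comp f_comp2 Ex_out cf_cf PC_mono)

variable {Q : ℝ}

theorem rtg_symm' {F : Set (ℤ × ℤ)} {u v : ℤ × ℤ} (h : ReflTransGen (PStep F) u v) :
    ReflTransGen (PStep F) v u := by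
  induction h with
  | refl => exact ReflTransGen.refl
  | tail _ hs ih => exact ReflTransGen.head hs.symm ih

theorem arm_good_ow (z : ℤ × ℤ) (R : ℤ) : Good (ow z R) := f_good.1 _ _ _ f_good.2.2

theorem arm_ow_true {z : ℤ × ℤ} {R : ℤ} {v : ℤ × ℤ} (h : ow z R v = true) : v ∉ Bq z R := by
  intro hv
  simp [ow, cf, hv] at h

/-- The corners of the squares outside of a box are at distance at least `R`. -/
theorem le_nm_of_Tout {z : ℤ × ℤ} {R : ℤ} {u : ℤ × ℤ} (h : u ∈ Tout z R) : R ≤ nm (u - z) := by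
  obtain ⟨-, v, hv, hc⟩ := h
  simp only [Cor] at hc
  rw [le_nm_iff]
  simp only [Bq, Finset.mem_product, Finset.mem_Ico, not_and_or, not_le, not_lt] at hv
  simp only [Prod.fst_sub, Prod.snd_sub]
  omega

/-- The corners of the squares of a half box are at distance at most `d`. -/
theorem nm_le_of_cor {z : ℤ × ℤ} {d : ℤ} {u : ℤ × ℤ} (h : u ∈ cor (HB z d)) : nm (u - z) ≤ d := by
  obtain ⟨-, v, hv, hc⟩ := h
  simp only [Cor] at hc
  rw [nm_le_iff]
  simp only [HB, Bq, Finset.mem_filter, Finset.mem_product, Finset.mem_Ico] at hv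
  simp only [Prod.fst_sub, Prod.snd_sub]
  omega

theorem Pr_up (hQ : 1 ≤ Q) {z : ℤ × ℤ} {R : ℤ} {U : Finset (ℤ × ℤ)} (hU : U ⊆ Bq z R)
    {A : Set Cfg} (hA : IncS A) : Pr Q U (ow z R) A ≤ Pr Q (Bq z R) eta1 A :=
  Ex_up hQ hU hA.incF (arm_good_ow z R) f_good.2.2 fun _ _ hv => ⟨arm_ow_true hv, rfl⟩

/-- **`M_ARM`.** -/
theorem m_arm (hQ : 1 ≤ Q) (h : RSW Q) : M_ARM Q := by
  have hQ0 : 0 < Q := by linarith
  constructor
  · obtain ⟨Λ, c, hΛ, hc, h⟩ := h
    refine ⟨Λ, c, hΛ, hc, fun z n U hn hU => ?_⟩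
    have h1 : Pr Q U (ow z (Λ * n)) {ω | Jt (Bq z (Λ * n)) {u | nm (u - z) ≤ n}
        (Tout z (Λ * n)) ω} ≤ Pr Q U (ow z (Λ * n)) {ω | ArmPx z n (Λ * n) ω} := by
      refine Pr_mono hQ0 ?_
      rintro ω ⟨s, hs, u, hu, hsu⟩
      have h2 : ReflTransGen (PStep (op ω)) s u := rtg_mono' (fun v hv => hv.2) hsu
      show ArmPx z n (Λ * n) ω
      rw [armPx_iff (by nlinarith)]
      exact ⟨u, s, even_of_rtg hs.1 h2, hu, le_nm_of_Tout hs, rtg_symm' h2⟩
    have h2 := Pr_up hQ hU (inc_arm z n (Λ * n))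
    have h3 := (h z n hn).1
    linarith
  · obtain ⟨α, C, hα, hC, h1, -⟩ := arm_fk hQ h
    refine ⟨min α 1, C, lt_min hα one_pos, min_le_right _ _, hC,
      fun z R U z' d ρ hd hdρ hU hB => ?_⟩
    have h2 : Pr Q U (ow z R) {ω | Jt (Bq z R) {u | ρ ≤ nm (u - z')} (cor (HB z' d)) ω} ≤
        Pr Q U (ow z R) {ω | ArmPx z' d ρ ω} := by
      refine Pr_mono hQ0 ?_
      rintro ω ⟨s, hs, u, hu, hsu⟩
      have h2 : ReflTransGen (PStep (op ω)) s u := rtg_mono' (fun v hv => hv.2) hsu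
      show ArmPx z' d ρ ω
      rw [armPx_iff hdρ]
      exact ⟨s, u, hs.1, nm_le_of_cor hs, hu, h2⟩
    have h3 := Pr_up hQ hU (inc_arm z' d ρ)
    have h4 := h1 z' d ρ (Bq z R) eta1 (fun _ => 1) hd hdρ f_good.2.2
      (Finset.sdiff_subset.trans hB) (fun _ => zero_le_one) (fun _ _ _ => rfl)
    simp only [one_mul] at h4
    rw [Ex_const hQ0, mul_one] at h4
    refine (h2.trans (h3.trans h4)).trans ?_
    refine mul_le_mul_of_nonneg_left ?_ hC.le
    have hd' : (0 : ℝ) < d := by exact_mod_cast (by omega : 0 < d)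
    have hρ' : (d : ℝ) ≤ ρ := by exact_mod_cast hdρ
    have hρ0 : (0 : ℝ) < ρ := by linarith
    exact Real.rpow_le_rpow_of_exponent_ge (div_pos hd' hρ0) ((div_le_one hρ0).2 hρ')
      (min_le_left _ _)

end Vale.Agent.P167.QM
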