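import Vale.Agent.P167.QM.Defs

/-!
# P167, general `q`, block Q-MIX1: the optimisation `M_OPT`
-/

namespace Vale.Agent.P167.QM

theorem opt_floor {A : ℤ → ℤ → ℝ} {K : ℤ} {C s : ℝ} (hK : 1 ≤ K) (hC : 1 ≤ C) (hs : 0 ≤ s)
    (hs2 : s ≤ 2) (h01 : ∀ d R, 1 ≤ d → d ≤ R → 0 ≤ A d R ∧ A d R ≤ 1)
    (hanti : ∀ d R R', 1 ≤ d → d ≤ R → R ≤ R' → A d R' ≤ A d R)
    (h : ∀ d n : ℤ, 1 ≤ d → d ≤ n → A d (K * n) ≤ C * ((d : ℝ) / n) ^ s) (d R : ℤ) (hd : 1 ≤ d)
    (hdR : d ≤ R) : A d R ≤ C * (2 * K) ^ 2 * ((d : ℝ) / R) ^ s := by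
  have hKR : (1 : ℝ) ≤ K := by exact_mod_cast hK
  have hd' : (1 : ℝ) ≤ d := by exact_mod_cast hd
  have hR' : (d : ℝ) ≤ R := by exact_mod_cast hdR
  have hR0 : (0 : ℝ) < R := by linarith
  have h1 : R / K * K ≤ R := Int.ediv_mul_le _ (by omega)
  have h2 : R < (R / K + 1) * K := Int.lt_ediv_add_one_mul_self R (by omega)
  have hp : 0 ≤ ((d : ℝ) / R) ^ s := Real.rpow_nonneg (by positivity) _
  have h3 : (2 * (K : ℝ) * ((d : ℝ) / R)) ^ s ≤ (2 * K) ^ 2 * ((d : ℝ) / R) ^ s := by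
    rw [Real.mul_rpow (by positivity) (by positivity)]
    refine mul_le_mul_of_nonneg_right ?_ hp
    calc (2 * (K : ℝ)) ^ s ≤ (2 * (K : ℝ)) ^ (2 : ℝ) :=
          Real.rpow_le_rpow_of_exponent_le (by linarith) hs2
      _ = (2 * (K : ℝ)) ^ 2 := by norm_cast
  by_cases h4 : d ≤ R / K
  · have h5 : A d R ≤ A d (K * (R / K)) :=
      hanti d _ _ hd (by nlinarith) (by linarith)
    have h6 := h d (R / K) hd h4
    have h7 : (0 : ℝ) < ((R / K : ℤ) : ℝ) := by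
      have : (0 : ℤ) < R / K := by omega
      exact_mod_cast this
    have h8 : (d : ℝ) / ((R / K : ℤ) : ℝ) ≤ 2 * K * ((d : ℝ) / R) := by
      rw [← mul_div_assoc, div_le_div_iff₀ h7 hR0]
      have h9 : (R : ℝ) ≤ 2 * K * ((R / K : ℤ) : ℝ) := by
        have : R ≤ 2 * K * (R / K) := by nlinarith
        exact_mod_cast this
      nlinarith
    have h9 : ((d : ℝ) / ((R / K : ℤ) : ℝ)) ^ s ≤ (2 * K * ((d : ℝ) / R)) ^ s :=
      Real.rpow_le_rpow (by positivity) h8 hs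
    have h10 := mul_le_mul_of_nonneg_left (h9.trans h3) (by linarith : (0 : ℝ) ≤ C)
    linarith
  · have h5 : R ≤ K * d := by nlinarith
    have h6 : (R : ℝ) ≤ K * d := by exact_mod_cast h5
    have h7 : 1 ≤ 2 * (K : ℝ) * ((d : ℝ) / R) := by
      rw [← mul_div_assoc, le_div_iff₀ hR0]
      nlinarith
    have h8 : 1 ≤ (2 * (K : ℝ) * ((d : ℝ) / R)) ^ s := Real.one_le_rpow h7 hs
    have h9 := (h01 d R hd hdR).2
    have h10 := mul_le_mul hC (h8.trans h3) zero_le_one (by linarith)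
    linarith

theorem opt_num {c α x : ℝ} (hc : c = α / 4) (hα : 0 < α) (hα1 : α ≤ 1) (hx : 0 < x)
    (hx1 : x ≤ 1 / 16) : 8 * x ≤ x ^ c ∧ x ^ c ≤ 1 := by
  have h1 : x ^ (1 / 4 : ℝ) ≤ x ^ c := Real.rpow_le_rpow_of_exponent_ge hx (by linarith)
    (by rw [hc]; linarith)
  have h2 : (x ^ (1 / 4 : ℝ)) ^ 4 = x := by
    rw [← Real.rpow_natCast, ← Real.rpow_mul hx.le]
    norm_num
  have h3 : 0 ≤ x ^ (1 / 4 : ℝ) := Real.rpow_nonneg hx.le _
  obtain ⟨y, hy⟩ : ∃ y, y = x ^ (1 / 4 : ℝ) := ⟨_, rfl⟩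
  rw [← hy] at h1 h2 h3
  have h4 : y ≤ 1 / 2 := by
    by_contra h
    push Not at h
    have : (1 / 2 : ℝ) ^ 4 < y ^ 4 := pow_lt_pow_left₀ h (by norm_num) (by norm_num)
    rw [h2] at this
    norm_num at this
    linarith
  have h5 : y ^ 3 ≤ (1 / 2) ^ 3 := pow_le_pow_left₀ h3 h4 3
  refine ⟨?_, Real.rpow_le_one hx.le (by linarith) (by rw [hc]; linarith)⟩
  have h6 : 8 * x ≤ y := by
    rw [← h2]
    nlinarith
  linarith

theorem opt_num2 {c α x u d n ρ C3 a : ℝ} (hc : c = α / 4) (hα : 0 < α) (hα1 : α ≤ 1)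
    (hx : x = d / n) (hu : u = x ^ c) (hd : 1 ≤ d) (hn : 16 * d ≤ n) (hρ1 : n * u / 2 ≤ ρ)
    (hρ2 : ρ ≤ n * u) (hC3 : 0 ≤ C3) (ha : a ≤ C3 * (d / ρ)) :
    ρ / n * (d / n) + n / ρ * (d / ρ) ^ α * a ≤ (1 + 8 * C3) * x ^ (1 + c) := by
  have hn0 : 0 < n := by linarith
  have hd0 : 0 < d := by linarith
  have hx0 : 0 < x := by rw [hx]; positivity
  have hx1 : x ≤ 1 / 16 := by
    rw [hx, div_le_div_iff₀ hn0 (by norm_num)]
    linarith
  have hu0 : 0 < u := by rw [hu]; exact Real.rpow_pos_of_pos hx0 _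
  have hρ0 : 0 < ρ := lt_of_lt_of_le (by positivity) hρ1
  have e1 : x ^ (1 + c) = x * u := by
    rw [Real.rpow_add hx0, Real.rpow_one, hu]
  have h1 : ρ / n * (d / n) ≤ x ^ (1 + c) := by
    rw [e1, ← hx, mul_comm]
    refine mul_le_mul_of_nonneg_left ?_ hx0.le
    rw [div_le_iff₀ hn0]
    linarith
  have h2 : n / ρ ≤ 2 / u := by
    rw [div_le_div_iff₀ hρ0 hu0]
    linarith
  have h3 : d / ρ ≤ 2 * (x / u) := by
    rw [hx, div_div, ← mul_div_assoc, div_le_div_iff₀ hρ0 (by positivity)]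
    nlinarith
  have h4 : (d / ρ) ^ α ≤ 2 * (x / u) ^ α := by
    have h5 : (d / ρ) ^ α ≤ (2 * (x / u)) ^ α := Real.rpow_le_rpow (by positivity) h3 hα.le
    rw [Real.mul_rpow (by norm_num) (by positivity)] at h5
    have h9 : (2 : ℝ) ^ α ≤ 2 := by
      calc (2 : ℝ) ^ α ≤ 2 ^ (1 : ℝ) := Real.rpow_le_rpow_of_exponent_le (by norm_num) hα1
        _ = 2 := Real.rpow_one 2
    exact h5.trans (mul_le_mul_of_nonneg_right h9 (Real.rpow_nonneg (by positivity) _))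
  have h5 : a ≤ C3 * (2 * (x / u)) := ha.trans (mul_le_mul_of_nonneg_left h3 hC3)
  have h6 : n / ρ * (d / ρ) ^ α ≤ 2 / u * (2 * (x / u) ^ α) :=
    mul_le_mul h2 h4 (Real.rpow_nonneg (by positivity) _) (by positivity)
  have h7 : n / ρ * (d / ρ) ^ α * a ≤ 2 / u * (2 * (x / u) ^ α) * (C3 * (2 * (x / u))) := by
    have h8 : 0 ≤ n / ρ * (d / ρ) ^ α := by
      have := Real.rpow_nonneg (by positivity : 0 ≤ d / ρ) α
      positivity
    calc n / ρ * (d / ρ) ^ α * a ≤ n / ρ * (d / ρ) ^ α * (C3 * (2 * (x / u))) :=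
          mul_le_mul_of_nonneg_left h5 h8
      _ ≤ _ := mul_le_mul_of_nonneg_right h6 (by positivity)
  have h8 : 2 / u * (2 * (x / u) ^ α) * (C3 * (2 * (x / u))) =
      8 * C3 * (x * (x / u) ^ α / (u * u)) := by
    field_simp
    ring
  have e2 : x / u = x ^ (1 - c) := by
    rw [Real.rpow_sub hx0, Real.rpow_one, hu]
  have e3 : x * (x / u) ^ α / (u * u) = x ^ (1 + (1 - c) * α - (c + c)) := by
    rw [Real.rpow_sub hx0, Real.rpow_add hx0, Real.rpow_one, Real.rpow_mul hx0.le, ← e2,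
      Real.rpow_add hx0 c c, hu]
  have h9 : x ^ (1 + (1 - c) * α - (c + c)) ≤ x ^ (1 + c) := by
    refine Real.rpow_le_rpow_of_exponent_ge hx0 (by linarith) ?_
    rw [hc]
    nlinarith
  rw [h8, e3] at h7
  have h10 := mul_le_mul_of_nonneg_left h9 (by linarith : 0 ≤ 8 * C3)
  linarith

theorem m_opt : M_OPT := by
  intro A K C α hK hC hα hα1 h01 hanti h2 h1
  have hKR : (1 : ℝ) ≤ K := by exact_mod_cast hK
  obtain ⟨c, hc⟩ : ∃ c, c = α / 4 := ⟨_, rfl⟩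
  have hc0 : 0 < c := by rw [hc]; linarith
  have hc1 : c ≤ 1 / 4 := by rw [hc]; linarith
  -- exponent one
  have hone := opt_floor (A := A) (K := K) (C := C + 1) (s := 1) hK (by linarith) zero_le_one
    (by norm_num) h01 hanti (fun d n hd hdn => by
      rw [Real.rpow_one]
      refine (h1 d n hd hdn).trans ?_
      refine mul_le_mul_of_nonneg_right (by linarith) ?_
      have : (0 : ℝ) ≤ d := by exact_mod_cast (by omega : (0 : ℤ) ≤ d)
      have : (0 : ℝ) ≤ n := by exact_mod_cast (by omega : (0 : ℤ) ≤ n)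
      positivity)
  obtain ⟨C3, hC3⟩ : ∃ C3, C3 = 4 * ((C + 1) * (2 * (K : ℝ)) ^ 2) := ⟨_, rfl⟩
  have hC30 : 0 ≤ C3 := by rw [hC3]; positivity
  have half : ∀ d ρ : ℤ, 1 ≤ d → 4 * d ≤ ρ → A d (ρ / 2) ≤ C3 * ((d : ℝ) / ρ) := by
    intro d ρ hd hdρ
    have h3 := hone d (ρ / 2) hd (by omega)
    rw [Real.rpow_one] at h3
    refine h3.trans ?_
    rw [hC3, mul_comm 4 ((C + 1) * (2 * (K : ℝ)) ^ 2), mul_assoc ((C + 1) * (2 * (K : ℝ)) ^ 2)]
    refine mul_le_mul_of_nonneg_left ?_ (by positivity)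
    have hd' : (1 : ℝ) ≤ d := by exact_mod_cast hd
    have hρ' : 4 * (d : ℝ) ≤ ρ := by exact_mod_cast hdρ
    have h4 : (ρ : ℝ) ≤ 4 * ((ρ / 2 : ℤ) : ℝ) := by
      have : ρ ≤ 4 * (ρ / 2) := by omega
      exact_mod_cast this
    have h5 : (0 : ℝ) < ((ρ / 2 : ℤ) : ℝ) := by linarith
    rw [← mul_div_assoc, div_le_div_iff₀ h5 (by linarith)]
    nlinarith
  obtain ⟨C2, hC2⟩ : ∃ C2, C2 = C * (1 + 8 * C3) + 256 := ⟨_, rfl⟩
  have hC21 : 1 ≤ C2 := by
    have : 0 ≤ C * (1 + 8 * C3) := by positivity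
    linarith
  have main : ∀ d n : ℤ, 1 ≤ d → d ≤ n → A d (K * n) ≤ C2 * ((d : ℝ) / n) ^ (1 + c) := by
    intro d n hd hdn
    have hd' : (1 : ℝ) ≤ d := by exact_mod_cast hd
    have hn' : (d : ℝ) ≤ n := by exact_mod_cast hdn
    have hn0 : (0 : ℝ) < n := by linarith
    have hx0 : 0 < (d : ℝ) / n := by positivity
    by_cases h16 : 16 * d ≤ n
    · have h16' : 16 * (d : ℝ) ≤ n := by exact_mod_cast h16
      obtain ⟨x, hx⟩ : ∃ x, x = (d : ℝ) / n := ⟨_, rfl⟩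
      obtain ⟨u, hu⟩ : ∃ u, u = x ^ c := ⟨_, rfl⟩
      have hx1 : x ≤ 1 / 16 := by
        rw [hx, div_le_div_iff₀ hn0 (by norm_num)]
        linarith
      have hnum := opt_num hc hα hα1 (by rw [hx]; exact hx0) hx1
      rw [← hu] at hnum
      have hxn : x * n = d := by rw [hx]; field_simp
      have ht : 8 * (d : ℝ) ≤ n * u := by
        have := mul_le_mul_of_nonneg_right hnum.1 hn0.le
        nlinarith
      have htn : n * u ≤ n := by
        have := mul_le_mul_of_nonneg_left hnum.2 hn0.le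
        linarith
      have hf1 : ((⌊(n : ℝ) * u⌋ : ℤ) : ℝ) ≤ n * u := Int.floor_le _
      have hf2 : (n : ℝ) * u < ((⌊(n : ℝ) * u⌋ : ℤ) : ℝ) + 1 := Int.lt_floor_add_one _
      obtain ⟨ρ, hρ⟩ : ∃ ρ : ℤ, ρ = ⌊(n : ℝ) * u⌋ := ⟨_, rfl⟩
      rw [← hρ] at hf1 hf2
      have h4d : 4 * d ≤ ρ := by
        have : 4 * (d : ℝ) ≤ ρ := by linarith
        exact_mod_cast this
      have hρn : ρ ≤ n := by
        have : (ρ : ℝ) ≤ n := by linarith
        exact_mod_cast this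
      have h5 := h2 d n ρ hd h4d hρn
      have h6 := opt_num2 (ρ := (ρ : ℝ)) hc hα hα1 hx hu hd' h16' (by linarith) hf1 hC30
        (half d ρ hd h4d)
      have h7 := mul_le_mul_of_nonneg_left h6 hC.le
      rw [← hx]
      have h8 : 0 ≤ x ^ (1 + c) := Real.rpow_nonneg (by rw [hx]; exact hx0.le) _
      rw [hC2]
      nlinarith
    · push Not at h16
      have h16' : (n : ℝ) ≤ 16 * d := by
        have : n ≤ 16 * d := h16.le
        exact_mod_cast this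
      have h3 := (h01 d (K * n) hd (by nlinarith)).2
      have h4 : 1 / 16 ≤ (d : ℝ) / n := by
        rw [div_le_div_iff₀ (by norm_num) hn0]
        linarith
      have h5 : (1 / 16 : ℝ) ^ (1 + c) ≤ ((d : ℝ) / n) ^ (1 + c) :=
        Real.rpow_le_rpow (by norm_num) h4 (by linarith)
      have h6 : (1 / 256 : ℝ) ≤ (1 / 16 : ℝ) ^ (1 + c) := by
        calc (1 / 256 : ℝ) = (1 / 16 : ℝ) ^ (2 : ℝ) := by norm_num
          _ ≤ _ := Real.rpow_le_rpow_of_exponent_ge (by norm_num) (by norm_num) (by linarith)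
      have h7 : 256 ≤ C2 := by
        have : 0 ≤ C * (1 + 8 * C3) := by positivity
        linarith
      have h8 := mul_le_mul h7 (h6.trans h5) (by norm_num) (by linarith)
      linarith
  refine ⟨c, C2 * (2 * K) ^ 2, hc0, by positivity, ?_⟩
  exact opt_floor hK hC21 (by linarith) (by linarith) h01 hanti main

end Vale.Agent.P167.QM
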