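import Vale.Agent.P167.QM.Mix2
import Vale.Agent.P167.QM.ArmM
import Vale.Agent.P167.QM.Opt
import Vale.Agent.P167.K8.RswFin

/-!
# P167, general `q`, block Q-MIX1: MIX > 1 at a free flat side
-/

namespace Vale.Agent.P167.QM

open Vale.Agent.P167.FK Vale.Agent.P167.FKA

/-- **MIX > 1** at a free flat side from bulk RSW. -/
theorem mix1 {Q : ℝ} (hQ : 1 ≤ Q) (h : RSW Q) : MIX1 Q := mix1_of hQ (m_arm hQ h) m_opt

/-- **MIX > 1** at a free flat side for all `1 ≤ q ≤ 4`. -/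
theorem mix1_all (θ : ℝ) (h0 : 0 ≤ θ) (h1 : θ ≤ Real.pi / 3) : MIX1 (2 * Real.cos θ) := by
  refine mix1 ?_ (K8.k_rsw θ h0 h1)
  have : Real.cos (Real.pi / 3) ≤ Real.cos θ :=
    Real.cos_le_cos_of_nonneg_of_le_pi h0 (by linarith [Real.pi_pos]) h1
  rw [Real.cos_pi_div_three] at this
  linarith

end Vale.Agent.P167.QM
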