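import Vale.Agent.P167.H519.GMono
import Vale.Agent.P167.FKA.WirB
import Vale.Agent.P167.FKA.All

/-!
# P167, general `q`, block Q-MIX1: relative comparison of boundary conditions

`Jt A X T ω`: an open path inside `A` from the set `T` of sites to the set `X` of sites.
If the boundary conditions `ξ ≤ ξ'` differ only on squares whose corners are in `T` and the other
open outer squares are connected, then on the event of no connection from `T` to `X` the larger
boundary condition is not larger for the functions of the squares with all even corners in `X`.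
-/

namespace Vale.Agent.P167.QM

open Finset Vale.Agent.P167.FK Vale.Agent.P167.FKA Relation
open Vale.Agent.P145.FB (PStep PConn)
open Vale.Agent.P167.H259 (f_markov f_fkg f_comp f_comp2 Ex_out cf_cf PC_mono)
open Vale.Agent.P167.H519 (cf_in loc_mono pa_even pb_even pa_cor pb_cor pc_of_cor ind_le_of_imp)

variable {Q : ℝ}

/-- A path of open squares of `A` from `T` to `X`. -/
def Jt (A : Finset (ℤ × ℤ)) (X T : Set (ℤ × ℤ)) (ω : Cfg) : Prop :=
  ∃ s ∈ T, ∃ u ∈ X, ReflTransGen (PStep (Op A ω)) s u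

/-- The even corners of the squares of `V` are in `X`. -/
def Crn (V : Finset (ℤ × ℤ)) (X : Set (ℤ × ℤ)) : Prop :=
  ∀ v ∈ V, ∀ u : ℤ × ℤ, Even (u.1 + u.2) → Cor v u → u ∈ X

/-- Admissible pair of boundary conditions. -/
structure Adm (A : Finset (ℤ × ℤ)) (ξ ξ' : Cfg) (W T : Set (ℤ × ℤ)) : Prop where
  le : ∀ v, v ∉ A → ξ v = true → ξ' v = true
  out : ∀ v, v ∉ A → ξ' v = true → v ∈ W ∨ ∀ u : ℤ × ℤ, Even (u.1 + u.2) → Cor v u → u ∈ T
  even : ∀ u ∈ T, Even (u.1 + u.2)
  opn : ∀ v ∈ W, v ∉ A ∧ ξ v = true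
  con : ∀ v ∈ W, ∀ v' ∈ W, ∀ u u' : ℤ × ℤ, Even (u.1 + u.2) → Cor v u → Even (u'.1 + u'.2) →
    Cor v' u' → ReflTransGen (PStep {v | v ∉ A ∧ ξ v = true}) u u'

theorem rtg_mono' {F F' : Set (ℤ × ℤ)} (h : ∀ v ∈ F, v ∈ F') {s t : ℤ × ℤ}
    (h1 : ReflTransGen (PStep F) s t) : ReflTransGen (PStep F') s t := by
  induction h1 with
  | refl => exact ReflTransGen.refl
  | tail _ hs ih => exact ih.tail ⟨hs.1, hs.2.1, h _ hs.2.2⟩

/-- The final step: nothing is left to explore. -/
theorem Adm.pc {A : Finset (ℤ × ℤ)} {ξ ξ' : Cfg} {W T : Set (ℤ × ℤ)} (h : Adm A ξ ξ' W T)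
    (hno : ∀ e ∈ A, ∀ c ∈ T, ¬ Cor e c) {S : Finset (ℤ × ℤ)} {a : ℤ × ℤ} (ha : a ∈ A)
    (hpc : PC (cf A ξ' S) (FK.pa a) (FK.pb a)) : PC (cf A ξ S) (FK.pa a) (FK.pb a) := by
  have hout : ∀ v, v ∈ {v | v ∉ A ∧ ξ v = true} → v ∈ op (cf A ξ S) := by
    rintro v ⟨h1, h2⟩
    show cf A ξ S v = true
    rw [cf_out h1]
    exact h2
  have key : ∀ y, PC (cf A ξ' S) (FK.pa a) y → Even (y.1 + y.2) ∧
      ((PC (cf A ξ S) (FK.pa a) y ∧ (y ∈ T → ∃ v ∈ W, ∃ z : ℤ × ℤ, Even (z.1 + z.2) ∧ Cor v z ∧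
        PC (cf A ξ S) (FK.pa a) z)) ∨
      (y ∈ T ∧ ∃ v ∈ W, ∃ z : ℤ × ℤ, Even (z.1 + z.2) ∧ Cor v z ∧
        PC (cf A ξ S) (FK.pa a) z)) := by
    intro y hy
    induction hy with
    | refl =>
      exact ⟨pa_even a, Or.inl ⟨ReflTransGen.refl, fun hT => absurd (pa_cor a) (hno a ha _ hT)⟩⟩
    | @tail y y' _ hst ih =>
      obtain ⟨hye, ih⟩ := ih
      have hye' : Even (y'.1 + y'.2) := (FKA.even_step hst).1 hye
      refine ⟨hye', ?_⟩
      have hc := cor_of_step hst
      have ho : cf A ξ' S (min y.1 y'.1, min y.2 y'.2) = true := hst.2.2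
      set q : ℤ × ℤ := (min y.1 y'.1, min y.2 y'.2) with hq
      by_cases hqA : q ∈ A
      · have hyT : y ∉ T := fun hT => hno q hqA y hT hc.1
        have hyT' : y' ∉ T := fun hT => hno q hqA y' hT hc.2
        rcases ih with ⟨h1, -⟩ | ⟨h1, -⟩
        · refine Or.inl ⟨h1.tail ⟨hst.1, hst.2.1, ?_⟩, fun hT => absurd hT hyT'⟩
          show cf A ξ S q = true
          rw [cf_in hqA] at ho ⊢
          exact ho
        · exact absurd h1 hyT
      · rw [cf_out hqA] at ho
        rcases h.out q hqA ho with hW | hT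
        · -- a square of `W`
          have hqo : q ∈ op (cf A ξ S) := hout q ⟨(h.opn q hW).1, (h.opn q hW).2⟩
          have h2 : PC (cf A ξ S) (FK.pa a) y := by
            rcases ih with ⟨h1, -⟩ | ⟨-, v, hv, z, hz, hvz, h1⟩
            · exact h1
            · exact ReflTransGen.trans h1 (rtg_mono' hout (h.con v hv q hW z y hz hvz hye hc.1))
          have h3 : PC (cf A ξ S) (FK.pa a) y' := ReflTransGen.tail h2 ⟨hst.1, hst.2.1, hqo⟩
          exact Or.inl ⟨h3, fun _ => ⟨q, hW, y', hye', hc.2, h3⟩⟩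
        · have hyT : y ∈ T := hT y hye hc.1
          have hyT' : y' ∈ T := hT y' hye' hc.2
          refine Or.inr ⟨hyT', ?_⟩
          rcases ih with ⟨-, h1⟩ | ⟨-, h1⟩
          · exact h1 hyT
          · exact h1
  rcases (key _ hpc).2 with h1 | h1
  · exact h1.1
  · exact absurd (pb_cor a) (hno a ha _ h1.1)

/-- **Relative comparison of boundary conditions.** -/
theorem rel_comp (hQ : 1 ≤ Q) {V : Finset (ℤ × ℤ)} {X : Set (ℤ × ℤ)} (hX : Crn V X)
    {G : Cfg → ℝ} (hG : IncF G) (hL : Loc V G) {W : Set (ℤ × ℤ)} :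
    ∀ (n : ℕ) (A : Finset (ℤ × ℤ)) (ξ ξ' : Cfg) (T : Set (ℤ × ℤ)),
    A.card = n → V ⊆ A → Good ξ → Good ξ' → Adm A ξ ξ' W T →
    Ex Q A ξ' (fun ω => G ω * (1 - {ω | Jt A X T ω}.indicator 1 ω)) ≤
      Ex Q A ξ' (fun ω => 1 - {ω | Jt A X T ω}.indicator 1 ω) * Ex Q A ξ G := by
  have hQ0 : 0 < Q := by linarith
  intro n
  induction n with
  | zero =>
    intro A ξ ξ' T hn hVA hξ hξ' hadm
    rw [Finset.card_eq_zero] at hn
    subst hn
    have hV : V = ∅ := Finset.subset_empty.1 hVA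
    subst hV
    have h1 : ∀ ω ω' : Cfg, G ω = G ω' := fun ω ω' => hL ω ω' fun v hv => absurd hv (by simp)
    have h2 : Ex Q ∅ ξ G = G ξ := by
      rw [← Ex_congr (F := fun _ => G ξ) (G := G) fun S _ => h1 _ _, Ex_const hQ0]
    rw [h2, mul_comm, ← Ex_mul_left]
    exact le_of_eq (Ex_congr fun S _ => by rw [h1 _ ξ])
  | succ n ih =>
    intro A ξ ξ' T hn hVA hξ hξ' hadm
    by_cases he : ∃ e ∈ A, ∃ c ∈ T, Cor e c
    · obtain ⟨e, heA, c, hc, hec⟩ := he
      by_cases heV : e ∈ V
      · have h1 : ∀ ω : Cfg, (1 : ℝ) - {ω | Jt A X T ω}.indicator 1 ω = 0 := by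
          intro ω
          have h2 : ω ∈ {ω | Jt A X T ω} := ⟨c, hc, c, hX e heV c (hadm.even c hc) hec,
            ReflTransGen.refl⟩
          rw [Set.indicator_of_mem h2]
          simp
        simp only [h1, mul_zero]
        rw [Ex_const hQ0, zero_mul]
      · set A' := A.erase e with hA'
        have hA'A : A' ⊆ A := Finset.erase_subset _ _
        have hcard : A'.card = n := by rw [hA', Finset.card_erase_of_mem heA, hn]; rfl
        have hVA' : V ⊆ A' := fun v hv => Finset.mem_erase.2 ⟨fun h => heV (h ▸ hv), hVA hv⟩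
        have heA' : e ∉ A' := by rw [hA']; exact Finset.notMem_erase _ _
        have hnot : ∀ v, v ∉ A' → v ∉ A ∨ v = e := by
          intro v hv
          by_cases h : v = e
          · exact Or.inr h
          · exact Or.inl fun h' => hv (Finset.mem_erase.2 ⟨h, h'⟩)
        set ζ := cf A ξ ∅ with hζ
        have hζg : Good ζ := f_good.1 A ξ ∅ hξ
        -- the right side
        have hright : Ex Q A' ζ G ≤ Ex Q A ξ G := by
          rw [f_markov Q A' A ξ G hQ0 hA'A hξ]
          rw [← Ex_const (Q := Q) (D := A) (η := ξ) hQ0 (Ex Q A' ζ G)]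
          refine Ex_mono hQ0 fun S hS => ?_
          refine f_comp Q A' ζ (cf A ξ S) G hQ hζg (f_good.1 A ξ S hξ) ?_ hG
          intro v hv
          by_cases h : v ∈ A
          · rw [hζ, cf_in h] at hv
            simp at hv
          · rw [hζ, cf_out h] at hv
            rw [cf_out h]
            exact hv
        have hN0 : 0 ≤ Ex Q A ξ' (fun ω => 1 - {ω | Jt A X T ω}.indicator 1 ω) :=
          Ex_nonneg hQ0 fun S _ => by
            have := ind_le_one {ω | Jt A X T ω} (cf A ξ' S)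
            linarith
        refine le_trans ?_ (mul_le_mul_of_nonneg_left hright hN0)
        rw [f_markov Q A' A ξ' _ hQ0 hA'A hξ',
          f_markov Q A' A ξ' (fun ω => 1 - {ω | Jt A X T ω}.indicator 1 ω) hQ0 hA'A hξ',
          mul_comm, ← Ex_mul_left]
        refine Ex_mono hQ0 fun S hS => ?_
        set ω := cf A ξ' S with hω
        have hωg : Good ω := f_good.1 A ξ' S hξ'
        set T' : Set (ℤ × ℤ) := {u | u ∈ T ∨ (ω e = true ∧ Even (u.1 + u.2) ∧ Cor e u)} with hT'
        -- the two events agree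
        have hiff : ∀ τ : Cfg, τ e = ω e → (Jt A X T τ ↔ Jt A' X T' τ) := by
          intro τ hτ
          constructor
          · rintro ⟨s, hs, u, hu, hsu⟩
            have key : ∀ x, ReflTransGen (PStep (Op A τ)) x u → Even (x.1 + x.2) →
                ReflTransGen (PStep (Op A' τ)) x u ∨
                ∃ s' ∈ T', ReflTransGen (PStep (Op A' τ)) s' u := by
              intro x hx
              induction hx using ReflTransGen.head_induction_on with
              | refl => intro _; exact Or.inl ReflTransGen.refl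
              | @head x y hxy _ ih =>
                intro hxe
                have hye : Even (y.1 + y.2) := (FKA.even_step hxy).1 hxe
                rcases ih hye with h | h
                · by_cases hq : (min x.1 y.1, min x.2 y.2) = e
                  · right
                    refine ⟨y, Or.inr ⟨?_, hye, ?_⟩, h⟩
                    · rw [← hτ, ← hq]; exact hxy.2.2.2
                    · rw [← hq]; exact (cor_of_step hxy).2
                  · left
                    exact ReflTransGen.head (show PStep (Op A' τ) x y from ⟨hxy.1, hxy.2.1,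
                      Finset.mem_erase.2 ⟨hq, hxy.2.2.1⟩, hxy.2.2.2⟩) h
                · exact Or.inr h
            rcases key s hsu (hadm.even s hs) with h | ⟨s', hs', h⟩
            · exact ⟨s, Or.inl hs, u, hu, h⟩
            · exact ⟨s', hs', u, hu, h⟩
          · rintro ⟨s, hs, u, hu, hsu⟩
            have h1 : ReflTransGen (PStep (Op A τ)) s u :=
              rtg_mono' (F := Op A' τ) (F' := Op A τ) (fun v hv => ⟨hA'A hv.1, hv.2⟩) hsu
            rcases hs with hs | ⟨h2, h3, h4⟩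
            · exact ⟨s, hs, u, hu, h1⟩
            · refine ⟨c, hc, u, hu, ?_⟩
              by_cases hcs : c = s
              · rw [hcs]; exact h1
              · refine ReflTransGen.head ?_ h1
                exact step_of_cor (F := Op A τ) ⟨heA, by rw [hτ]; exact h2⟩ hec h4
                  (hadm.even c hc) h3 hcs
        have hadm' : Adm A' ζ ω W T' := by
          refine ⟨?_, ?_, ?_, ?_, ?_⟩
          · intro v hv hvt
            rcases hnot v hv with h | h
            · rw [hω, cf_out h]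
              rw [hζ, cf_out h] at hvt
              exact hadm.le v h hvt
            · subst h
              rw [hζ, cf_in heA] at hvt
              simp at hvt
          · intro v hv hvt
            rcases hnot v hv with h | h
            · rw [hω, cf_out h] at hvt
              rcases hadm.out v h hvt with h1 | h1
              · exact Or.inl h1
              · exact Or.inr fun u hu hvu => Or.inl (h1 u hu hvu)
            · subst h
              exact Or.inr fun u hu hvu => Or.inr ⟨hvt, hu, hvu⟩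
          · rintro u (hu | hu)
            · exact hadm.even u hu
            · exact hu.2.1
          · intro v hv
            have h1 := hadm.opn v hv
            refine ⟨fun h => h1.1 (hA'A h), ?_⟩
            rw [hζ, cf_out h1.1]
            exact h1.2
          · intro v hv v' hv' u u' hu hvu hu' hvu'
            refine rtg_mono' ?_ (hadm.con v hv v' hv' u u' hu hvu hu' hvu')
            rintro w ⟨hw1, hw2⟩
            refine ⟨fun h => hw1 (hA'A h), ?_⟩
            rw [hζ, cf_out hw1]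
            exact hw2
        have hI := ih A' ζ ω T' hcard hVA' hζg hωg hadm'
        have hte : ∀ S', cf A' ω S' e = ω e := fun S' => cf_out heA'
        have hind : ∀ S', {ω | Jt A X T ω}.indicator (1 : Cfg → ℝ) (cf A' ω S') =
            {ω | Jt A' X T' ω}.indicator 1 (cf A' ω S') := by
          intro S'
          by_cases h : Jt A X T (cf A' ω S')
          · rw [Set.indicator_of_mem (show cf A' ω S' ∈ {ω | Jt A X T ω} from h),
              Set.indicator_of_mem (show cf A' ω S' ∈ {ω | Jt A' X T' ω} from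
                (hiff _ (hte S')).1 h)]
          · rw [Set.indicator_of_notMem (show cf A' ω S' ∉ {ω | Jt A X T ω} from h),
              Set.indicator_of_notMem (show cf A' ω S' ∉ {ω | Jt A' X T' ω} from
                fun h' => h ((hiff _ (hte S')).2 h'))]
        have e1 : Ex Q A' ω (fun ω => G ω * (1 - {ω | Jt A X T ω}.indicator 1 ω)) =
            Ex Q A' ω (fun ω => G ω * (1 - {ω | Jt A' X T' ω}.indicator 1 ω)) :=
          Ex_congr fun S' _ => by rw [hind S']
        have e2 : Ex Q A' ω (fun ω => 1 - {ω | Jt A X T ω}.indicator 1 ω) =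
            Ex Q A' ω (fun ω => 1 - {ω | Jt A' X T' ω}.indicator 1 ω) :=
          Ex_congr fun S' _ => by rw [hind S']
        rw [e1, e2, mul_comm]
        exact hI
    · push Not at he
      by_cases hTX : ∃ s ∈ T, s ∈ X
      · obtain ⟨s, hs, hsX⟩ := hTX
        have h1 : ∀ ω : Cfg, (1 : ℝ) - {ω | Jt A X T ω}.indicator 1 ω = 0 := by
          intro ω
          rw [Set.indicator_of_mem (show ω ∈ {ω | Jt A X T ω} from
            ⟨s, hs, s, hsX, ReflTransGen.refl⟩)]
          simp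
        simp only [h1, mul_zero]
        rw [Ex_const hQ0, zero_mul]
      push Not at hTX
      have hN : ∀ ω : Cfg, (1 : ℝ) - {ω | Jt A X T ω}.indicator 1 ω = 1 := by
        intro ω
        rw [Set.indicator_of_notMem]
        · simp
        · rintro ⟨s, hs, u, hu, hsu⟩
          rcases ReflTransGen.cases_head hsu with h | ⟨w, h1, -⟩
          · subst h
            exact hTX s hs hu
          · exact he _ h1.2.2.1 s hs (cor_of_step h1).1
      simp only [hN, mul_one]
      rw [Ex_const hQ0, one_mul]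
      exact f_comp2 Q A ξ' ξ G hQ hξ' hξ (fun S _ a ha _ hpc => hadm.pc he ha hpc) hG
        (loc_mono hVA hL)

/-- The same for decreasing functions. -/
theorem rel_dec (hQ : 1 ≤ Q) {V A : Finset (ℤ × ℤ)} {X : Set (ℤ × ℤ)} (hX : Crn V X)
    {F : Cfg → ℝ} (hF : IncF fun ω => - F ω)
    (hL : Loc V F) {W T : Set (ℤ × ℤ)} {ξ ξ' : Cfg} (hVA : V ⊆ A) (hξ : Good ξ) (hξ' : Good ξ')
    (h : Adm A ξ ξ' W T) :
    (1 - Pr Q A ξ' {ω | Jt A X T ω}) * Ex Q A ξ F ≤
      Ex Q A ξ' (fun ω => F ω * (1 - {ω | Jt A X T ω}.indicator 1 ω)) := by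
  have h1 := rel_comp hQ hX hF (fun ω ω' h' => by simp only [hL ω ω' h']) A.card A ξ ξ' T rfl hVA
    hξ hξ' h
  have e1 : Ex Q A ξ' (fun ω => - F ω * (1 - {ω | Jt A X T ω}.indicator 1 ω)) =
      - Ex Q A ξ' (fun ω => F ω * (1 - {ω | Jt A X T ω}.indicator 1 ω)) := by
    rw [← Ex_neg]
    exact Ex_congr fun S _ => by ring
  have e2 : Ex Q A ξ' (fun ω => 1 - {ω | Jt A X T ω}.indicator 1 ω) =
      1 - Pr Q A ξ' {ω | Jt A X T ω} := by
    rw [Ex_sub, Ex_const (by linarith)]
    rfl
  rw [e1, e2, Ex_neg] at h1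
  linarith

theorem Ex_one_sub (hQ0 : 0 < Q) {A : Finset (ℤ × ℤ)} {η : Cfg} (E : Set Cfg) :
    Ex Q A η (fun ω => 1 - E.indicator 1 ω) = 1 - Pr Q A η E := by
  rw [Ex_sub, Ex_const hQ0]
  rfl

/-- The corners of the squares of `B`. -/
def cor (B : Finset (ℤ × ℤ)) : Set (ℤ × ℤ) := {u | Even (u.1 + u.2) ∧ ∃ v ∈ B, Cor v u}

theorem crn_cor {V B : Finset (ℤ × ℤ)} (h : V ⊆ B) : Crn V (cor B) :=
  fun v hv u hu hvu => ⟨hu, v, h hv, hvu⟩

/-- The connection event does not depend on the squares of the target. -/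
theorem ind_Jt (A B : Finset (ℤ × ℤ)) {T : Set (ℤ × ℤ)} (hT : ∀ u ∈ T, Even (u.1 + u.2)) :
    Ind B ({ω | Jt A (cor B) T ω}.indicator 1) := by
  have key : ∀ ω ω' : Cfg, (∀ v, v ∉ B → ω v = ω' v) → Jt A (cor B) T ω → Jt A (cor B) T ω' := by
    rintro ω ω' h ⟨s, hs, u, hu, hsu⟩
    have h1 : ∃ u' ∈ cor B, ReflTransGen (PStep (Op (A \ B) ω)) s u' := by
      have hse := hT s hs
      clear hs
      induction hsu using ReflTransGen.head_induction_on with
      | refl => exact ⟨u, hu, ReflTransGen.refl⟩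
      | @head x y hxy _ ih =>
        by_cases hq : (min x.1 y.1, min x.2 y.2) ∈ B
        · exact ⟨x, ⟨hse, _, hq, (cor_of_step hxy).1⟩, ReflTransGen.refl⟩
        · obtain ⟨u', h2, h3⟩ := ih ((FKA.even_step hxy).1 hse)
          exact ⟨u', h2, ReflTransGen.head (show PStep (Op (A \ B) ω) x y from
            ⟨hxy.1, hxy.2.1, Finset.mem_sdiff.2 ⟨hxy.2.2.1, hq⟩, hxy.2.2.2⟩) h3⟩
    obtain ⟨u', h2, h3⟩ := h1
    refine ⟨s, hs, u', h2, rtg_mono' (F := Op (A \ B) ω) (F' := Op A ω') ?_ h3⟩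
    rintro v ⟨h4, h5⟩
    rw [Finset.mem_sdiff] at h4
    exact ⟨h4.1, by rw [← h v h4.2]; exact h5⟩
  intro ω ω' h
  by_cases h1 : Jt A (cor B) T ω
  · rw [Set.indicator_of_mem (show ω ∈ {ω | Jt A (cor B) T ω} from h1),
      Set.indicator_of_mem (show ω' ∈ {ω | Jt A (cor B) T ω} from key ω ω' h h1)]
    rfl
  · rw [Set.indicator_of_notMem (show ω ∉ {ω | Jt A (cor B) T ω} from h1),
      Set.indicator_of_notMem (show ω' ∉ {ω | Jt A (cor B) T ω} from
        fun h2 => h1 (key ω' ω (fun v hv => (h v hv).symm) h2))]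

/-- **Transfer.** The difference of two boundary conditions is at most the probability of a
connection to `B` times the oscillation of the conditional expectation on `B`. -/
theorem transfer (hQ : 1 ≤ Q) {A B : Finset (ℤ × ℤ)} {f : Cfg → ℝ} (hf : IncF f) (hL : Loc B f)
    {W T : Set (ℤ × ℤ)} {ξ ξ' : Cfg} (hBA : B ⊆ A) (hξ : Good ξ) (hξ' : Good ξ')
    (h : Adm A ξ ξ' W T) {M m : ℝ} (hM : ∀ S ⊆ A, Ex Q B (cf A ξ' S) f ≤ M)
    (hm : m ≤ Ex Q A ξ f) :
    Ex Q A ξ' f - Ex Q A ξ f ≤ Pr Q A ξ' {ω | Jt A (cor B) T ω} * (M - m) := by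
  have hQ0 : 0 < Q := by linarith
  have h1 := rel_comp hQ (crn_cor subset_rfl) hf hL A.card A ξ ξ' T rfl hBA hξ hξ' h
  rw [Ex_one_sub hQ0] at h1
  have h2 : Ex Q A ξ' (fun ω => f ω * (1 - {ω | Jt A (cor B) T ω}.indicator 1 ω)) =
      Ex Q A ξ' f - Ex Q A ξ' (fun ω => {ω | Jt A (cor B) T ω}.indicator 1 ω * f ω) := by
    rw [← Ex_sub]
    exact Ex_congr fun S _ => by ring
  have h3 : Ex Q A ξ' (fun ω => {ω | Jt A (cor B) T ω}.indicator 1 ω * f ω) ≤
      Pr Q A ξ' {ω | Jt A (cor B) T ω} * M := by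
    rw [markov f_markov hQ0 hBA hξ' (ind_Jt A B h.even), mul_comm]
    unfold Pr
    rw [← Ex_mul_left]
    refine Ex_mono hQ0 fun S hS => ?_
    rw [mul_comm]
    exact mul_le_mul_of_nonneg_right (hM S hS) (ind_nonneg _ _)
  have hp0 := Pr_nonneg (D := A) (η := ξ') hQ0 {ω | Jt A (cor B) T ω}
  rw [h2] at h1
  nlinarith [mul_le_mul_of_nonneg_left hm hp0]

/-! ### Comparison of domains -/

theorem comp_out (hQ : 1 ≤ Q) {D : Finset (ℤ × ℤ)} {η η' : Cfg} {F : Cfg → ℝ} (hF : IncF F)
    (hη : Good η) (hη' : Good η') (h : ∀ v, v ∉ D → η v = true → η' v = true) :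
    Ex Q D η F ≤ Ex Q D η' F := by
  have h1 : Ex Q D η F = Ex Q D (cf D η ∅) F := Ex_out (fun v hv => (cf_out hv).symm) F
  rw [h1]
  refine f_comp Q D _ _ F hQ (f_good.1 _ _ _ hη) hη' (fun v hv => ?_) hF
  by_cases hD : v ∈ D
  · rw [cf_in hD] at hv
    simp at hv
  · rw [cf_out hD] at hv
    exact h v hD hv

/-- The squares of the larger domain are closed for the smaller one. -/
theorem Ex_up (hQ : 1 ≤ Q) {U U' : Finset (ℤ × ℤ)} (hU : U ⊆ U') {η η' : Cfg} {F : Cfg → ℝ}
    (hF : IncF F) (hη : Good η) (hη' : Good η')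
    (h : ∀ v, v ∉ U → η v = true → v ∉ U' ∧ η' v = true) : Ex Q U η F ≤ Ex Q U' η' F := by
  have hQ0 : 0 < Q := by linarith
  rw [f_markov Q U U' η' F hQ0 hU hη', ← Ex_const (Q := Q) (D := U') (η := η') hQ0 (Ex Q U η F)]
  refine Ex_mono hQ0 fun S _ => comp_out hQ hF hη (f_good.1 _ _ _ hη') fun v hv hvt => ?_
  obtain ⟨h1, h2⟩ := h v hv hvt
  rw [cf_out h1]
  exact h2

/-- The squares of the larger domain are open for the smaller one. -/
theorem Ex_dn (hQ : 1 ≤ Q) {U U' : Finset (ℤ × ℤ)} (hU : U ⊆ U') {η η' : Cfg} {F : Cfg → ℝ}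
    (hF : IncF F) (hη : Good η) (hη' : Good η') (h : ∀ v, v ∉ U' → η' v = true → η v = true)
    (h' : ∀ v ∈ U', v ∉ U → η v = true) : Ex Q U' η' F ≤ Ex Q U η F := by
  have hQ0 : 0 < Q := by linarith
  rw [f_markov Q U U' η' F hQ0 hU hη', ← Ex_const (Q := Q) (D := U') (η := η') hQ0 (Ex Q U η F)]
  refine Ex_mono hQ0 fun S _ => comp_out hQ hF (f_good.1 _ _ _ hη') hη fun v hv hvt => ?_
  by_cases hv' : v ∈ U'
  · exact h' v hv' hv
  · rw [cf_out hv'] at hvt
    exact h v hv' hvt

/-! ### Closed squares -/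

/-- All the squares of `S` are closed. -/
def Cl (S : Finset (ℤ × ℤ)) : Set Cfg := {ω | ∀ v ∈ S, ω v = false}

theorem dec_Cl (S : Finset (ℤ × ℤ)) : DecS (Cl S) := by
  intro ω ω' h h' v hv
  have h1 := h' v hv
  cases h2 : ω v with
  | false => rfl
  | true => rw [h v h2] at h1; exact absurd h1 (by simp)

theorem loc_Cl (S : Finset (ℤ × ℤ)) : Loc S ((Cl S).indicator 1) := by
  intro ω ω' h
  by_cases h1 : ω ∈ Cl S
  · have h2 : ω' ∈ Cl S := fun v hv => by rw [← h v hv]; exact h1 v hv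
    rw [Set.indicator_of_mem h1, Set.indicator_of_mem h2]
    rfl
  · have h2 : ω' ∉ Cl S := fun h3 => h1 fun v hv => by rw [h v hv]; exact h3 v hv
    rw [Set.indicator_of_notMem h1, Set.indicator_of_notMem h2]

/-- Conditioning on closed squares. -/
theorem Ex_Cl (hQ0 : 0 < Q) {D S : Finset (ℤ × ℤ)} {η : Cfg} (hη : Good η)
    (F : Cfg → ℝ) : Ex Q D η (fun ω => (Cl S).indicator 1 ω * F ω) =
      Pr Q D η (Cl S) * Ex Q (D \ S) (cf S η ∅) F := by
  have h1 : Ind (D \ S) ((Cl S).indicator 1) :=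
    (loc_Cl S).ind (Finset.disjoint_sdiff)
  rw [markov f_markov hQ0 Finset.sdiff_subset hη h1, mul_comm]
  unfold Pr
  rw [← Ex_mul_left]
  refine Ex_congr fun T _ => ?_
  by_cases h2 : cf D η T ∈ Cl S
  · rw [mul_comm]
    congr 1
    refine Ex_out (fun v hv => ?_) F
    by_cases h3 : v ∈ S
    · rw [h2 v h3, cf_in h3]
      simp
    · rw [cf_out h3, cf_out]
      exact fun h4 => hv (Finset.mem_sdiff.2 ⟨h4, h3⟩)
  · rw [Set.indicator_of_notMem h2]
    simp

theorem Pr_Cl_union (hQ0 : 0 < Q) {D S S' : Finset (ℤ × ℤ)} {η : Cfg} (hη : Good η) :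
    Pr Q D η (Cl (S ∪ S')) = Pr Q D η (Cl S) * Pr Q (D \ S) (cf S η ∅) (Cl S') := by
  have h := Ex_Cl hQ0 (D := D) (S := S) hη ((Cl S').indicator 1)
  refine Eq.trans ?_ h
  refine Ex_congr fun T _ => ?_
  rw [← ind_inter]
  congr 1
  ext ω
  simp only [Cl, Set.mem_ofPred_eq, Set.mem_inter_iff, Finset.mem_union]
  constructor
  · intro h
    exact ⟨fun v hv => h v (Or.inl hv), fun v hv => h v (Or.inr hv)⟩
  · rintro ⟨h1, h2⟩ v (hv | hv)
    · exact h1 v hv
    · exact h2 v hv

theorem Pr_Cl_pos (hQ : 1 ≤ Q) {D S : Finset (ℤ × ℤ)} (hS : S ⊆ D) (η : Cfg) :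
    0 < Pr Q D η (Cl S) := by
  have hQ0 : 0 < Q := by linarith
  unfold Pr Ex
  refine div_pos (Finset.sum_pos' (fun T _ => mul_nonneg (pow_nonneg hQ0.le _) (ind_nonneg _ _))
    ⟨∅, by simp, mul_pos (pow_pos hQ0 _) ?_⟩) (Zq_pos hQ0 _ _)
  rw [Set.indicator_of_mem]
  · simp
  · intro v hv
    rw [cf_in (hS hv)]
    simp

end Vale.Agent.P167.QM
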