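import Vale.Agent.P167.QM.Mix1

/-!
# P167, general `q`, block Q-MIX1: `M_ARM → M_OPT → MIX1`
-/

namespace Vale.Agent.P167.QM

open Finset Vale.Agent.P167.FK Vale.Agent.P167.FKA Relation

variable {Q : ℝ}

theorem exists_k {n d : ℤ} (hd : 1 ≤ d) (h : 2 * d ≤ n) : ∃ k : ℕ, 1 ≤ k ∧ 2 * d * k ≤ n ∧
    (n : ℝ) ≤ 4 * d * k := by
  have h1 : 1 ≤ n / (2 * d) := by rw [Int.le_ediv_iff_mul_le (by omega)]; linarith
  have h2 : n / (2 * d) * (2 * d) ≤ n := Int.ediv_mul_le _ (by omega)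
  have h3 : n < (n / (2 * d) + 1) * (2 * d) := Int.lt_ediv_add_one_mul_self n (by omega)
  obtain ⟨k, hk⟩ : ∃ k : ℕ, (k : ℤ) = n / (2 * d) := ⟨(n / (2 * d)).toNat, by omega⟩
  rw [← hk] at h1 h2 h3
  refine ⟨k, by exact_mod_cast h1, by linarith, ?_⟩
  have h4 : n ≤ 4 * d * k := by nlinarith
  exact_mod_cast h4

/-- The influence. -/
noncomputable def aa (Q : ℝ) (d R : ℤ) : ℝ := 1 - p1 Q 0 d R / p0 Q 0 d R

theorem aa_mem (hQ : 1 ≤ Q) {d R : ℤ} (h : d ≤ R) : 0 ≤ aa Q d R ∧ aa Q d R ≤ 1 := by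
  have h1 := p0_pos hQ (z := 0) h
  have h2 := p1_le_p0 hQ (z := 0) (d := d) (R := R)
  have h3 := p1_nonneg hQ (z := 0) (d := d) (R := R)
  unfold aa
  constructor
  · rw [sub_nonneg, div_le_one h1]
    exact h2
  · linarith [div_nonneg h3 h1.le]

theorem aa_anti (hQ : 1 ≤ Q) {d R R' : ℤ} (h : d ≤ R) (h' : R ≤ R') : aa Q d R' ≤ aa Q d R := by
  unfold aa
  refine sub_le_sub_left ?_ 1
  exact div_le_div₀ (p1_nonneg hQ) (p1_mono hQ h') (p0_pos hQ (h.trans h')) (p0_anti hQ h')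

theorem aa_mul (hQ : 1 ≤ Q) {d R : ℤ} (h : d ≤ R) :
    p0 Q 0 d R - p1 Q 0 d R = aa Q d R * p0 Q 0 d R := by
  have h1 := p0_pos hQ (z := 0) h
  unfold aa
  field_simp


theorem num1 {k m d r ρ n c0 : ℝ} (hk : 1 ≤ k) (hm : 1 ≤ m) (hd : 1 ≤ d)
    (hn : 0 < n) (hρ : 0 < ρ) (hrρ : 2 * r ≤ ρ) (hc0 : 0 < c0) (h1 : n ≤ 4 * d * k)
    (h2 : n ≤ 4 * r * m) : 1 / (k * (m * c0)) ≤ 8 / c0 * (ρ / n * (d / n)) := by
  have hd0 : 0 < d := by linarith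
  have hk0 : 0 < k := by linarith
  have hm0 : 0 < m := by linarith
  have e : 8 / c0 * (ρ / n * (d / n)) = 8 * ρ * d / (c0 * n * n) := by
    field_simp
  rw [e, div_le_div_iff₀ (by positivity) (by positivity)]
  have h4 : n * n ≤ (4 * d * k) * (4 * r * m) := mul_le_mul h1 h2 hn.le (by positivity)
  have h5 : (4 * d * k) * (4 * r * m) ≤ 8 * ρ * d * (k * m) := by
    have h6 : 0 ≤ d * k * m := by positivity
    have h7 := mul_le_mul_of_nonneg_right hrρ h6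
    nlinarith
  have h6 : n * n ≤ 8 * ρ * d * (k * m) := h4.trans h5
  have h7 := mul_le_mul_of_nonneg_left h6 hc0.le
  nlinarith

theorem num2 {m d r ρ n Ca α A : ℝ} (hm : 1 ≤ m) (hd : 1 ≤ d) (hr : 0 < r)
    (hρ : 0 < ρ) (hrρ : ρ ≤ 3 * r) (hCa : 0 < Ca) (hα : 0 < α) (hα1 : α ≤ 1)
    (hA : 0 ≤ A) (h2 : 2 * r * m ≤ n) :
    m * (Ca * (d / r) ^ α * (2 * A)) ≤ 9 * Ca * (n / ρ * (d / ρ) ^ α * A) := by
  have hd0 : 0 < d := by linarith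
  have hpow0 : 0 ≤ (d / ρ) ^ α := Real.rpow_nonneg (by positivity) _
  have h5 : m ≤ 3 / 2 * (n / ρ) := by
    rw [← mul_div_assoc, le_div_iff₀ hρ]
    nlinarith
  have h6 : (d / r) ^ α ≤ 3 * (d / ρ) ^ α := by
    have h7 : d / r ≤ 3 * (d / ρ) := by
      rw [← mul_div_assoc, div_le_div_iff₀ hr hρ]
      nlinarith
    have h8 : (d / r) ^ α ≤ (3 * (d / ρ)) ^ α :=
      Real.rpow_le_rpow (by positivity) h7 hα.le
    rw [Real.mul_rpow (by norm_num) (by positivity)] at h8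
    have h9 : (3 : ℝ) ^ α ≤ 3 := by
      calc (3 : ℝ) ^ α ≤ 3 ^ (1 : ℝ) := Real.rpow_le_rpow_of_exponent_le (by norm_num) hα1
        _ = 3 := Real.rpow_one 3
    exact h8.trans (mul_le_mul_of_nonneg_right h9 hpow0)
  have h7 : Ca * (d / r) ^ α * (2 * A) ≤ Ca * (3 * (d / ρ) ^ α) * (2 * A) :=
    mul_le_mul_of_nonneg_right (mul_le_mul_of_nonneg_left h6 hCa.le) (by linarith)
  have h9 : 0 ≤ Ca * (3 * (d / ρ) ^ α) * (2 * A) :=
    mul_nonneg (mul_nonneg hCa.le (by linarith)) (by linarith)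
  calc m * (Ca * (d / r) ^ α * (2 * A)) ≤ m * (Ca * (3 * (d / ρ) ^ α) * (2 * A)) :=
        mul_le_mul_of_nonneg_left h7 (by linarith)
    _ ≤ 3 / 2 * (n / ρ) * (Ca * (3 * (d / ρ) ^ α) * (2 * A)) :=
        mul_le_mul_of_nonneg_right h5 h9
    _ = _ := by ring

section

variable {Λ : ℤ} {c0 : ℝ}

theorem first_bound (hQ : 1 ≤ Q) (hΛ : 2 ≤ Λ) (hc0 : 0 < c0)
    (hc' : ∀ n : ℤ, 1 ≤ n → ∀ U : Finset (ℤ × ℤ), U ⊆ Bq 0 (Λ * n) → c0 ≤ gg Q (Λ * n) n U)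
    (d n : ℤ) (hd : 1 ≤ d) (hdn : d ≤ n) : aa Q d (2 * (Λ * n)) ≤ 4 / c0 * ((d : ℝ) / n) := by
  have hQ0 : 0 < Q := by linarith
  have hc01 : c0 ≤ 1 := (hc' 1 le_rfl ∅ (Finset.empty_subset _)).trans (gg_le_one hQ _ _ _)
  have hdR : (1 : ℝ) ≤ d := by exact_mod_cast hd
  have hnR : (d : ℝ) ≤ n := by exact_mod_cast hdn
  have hn0 : (0 : ℝ) < n := by linarith
  have hdK : d ≤ 2 * (Λ * n) := by nlinarith
  by_cases h2 : 2 * d ≤ n
  · obtain ⟨k, hk1, hk2, hk3⟩ := exists_k hd h2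
    have hb := basic hQ (Λ := Λ) (n := n) (d := d) (r := d) (k := k) (m := 1) hΛ hd le_rfl hdn
      hk2 (by simpa using h2) hc0 (hc' n (by omega)) zero_le_one (a := 1)
      (fun U z' _ _ => Pr_le_one hQ0 _)
    simp only [Nat.cast_one, sub_self, zero_mul, add_zero, one_mul] at hb
    have hb' : (k : ℝ) * (c0 * aa Q d (2 * (Λ * n))) ≤ 1 := hb
    have hkR : (1 : ℝ) ≤ k := by exact_mod_cast hk1
    have hk0 : 0 < (k : ℝ) * c0 := by positivity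
    have h3 : aa Q d (2 * (Λ * n)) ≤ 1 / (k * c0) := by
      rw [le_div_iff₀ hk0]
      linarith
    refine h3.trans ?_
    rw [div_mul_div_comm, div_le_div_iff₀ hk0 (by positivity)]
    nlinarith
  · have h3 := (aa_mem hQ hdK).2
    have h4 : (n : ℝ) ≤ 2 * d := by
      have : n ≤ 2 * d := by omega
      exact_mod_cast this
    have h5 : 1 ≤ 4 / c0 * ((d : ℝ) / n) := by
      rw [div_mul_div_comm, le_div_iff₀ (by positivity)]
      nlinarith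
    linarith

theorem small_bound (hQ : 1 ≤ Q) (hΛ : 2 ≤ Λ) {C1 : ℝ} (hC14 : 4 ≤ C1)
    (first : ∀ d n : ℤ, 1 ≤ d → d ≤ n → aa Q d (2 * (Λ * n)) ≤ C1 * ((d : ℝ) / n))
    (d r : ℤ) (hd : 1 ≤ d) (h : 1 / 2 < aa Q d r) :
    (r : ℝ) ≤ 4 * ((2 * Λ : ℤ) : ℝ) * C1 * d := by
  set K : ℤ := 2 * Λ with hK
  have hKR : (4 : ℝ) ≤ K := by
    have : (4 : ℤ) ≤ K := by omega
    exact_mod_cast this
  have hdR : (1 : ℝ) ≤ d := by exact_mod_cast hd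
  have hKC : 4 * (4 : ℝ) ≤ K * C1 := by nlinarith
  have hK0 : 0 < K := by omega
  have h1 : r / K * K ≤ r := Int.ediv_mul_le _ (by omega)
  have h2 : r < (r / K + 1) * K := Int.lt_ediv_add_one_mul_self r hK0
  by_cases h3 : d ≤ r / K
  · have h4 := first d (r / K) hd h3
    have h5 : aa Q d r ≤ aa Q d (2 * (Λ * (r / K))) := by
      have e : 2 * (Λ * (r / K)) = r / K * K := by rw [hK]; ring
      rw [e]
      exact aa_anti hQ (by nlinarith) h1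
    have h6 : (0 : ℝ) < ((r / K : ℤ) : ℝ) := by
      have : (0 : ℤ) < r / K := by omega
      exact_mod_cast this
    have h7 : (1 : ℝ) / 2 < C1 * ((d : ℝ) / ((r / K : ℤ) : ℝ)) := by linarith
    rw [← mul_div_assoc, lt_div_iff₀ h6] at h7
    have h8 : (r : ℝ) ≤ 2 * K * ((r / K : ℤ) : ℝ) := by
      have : r ≤ 2 * K * (r / K) := by nlinarith
      exact_mod_cast this
    nlinarith
  · have h4 : r ≤ K * d := by nlinarith
    have h5 : (r : ℝ) ≤ K * d := by exact_mod_cast h4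
    have h6 : (0 : ℝ) ≤ K * d := by positivity
    nlinarith

theorem second_half (hQ : 1 ≤ Q) (hΛ : 2 ≤ Λ) (hc0 : 0 < c0) {α Ca : ℝ} (hα : 0 < α)
    (hα1 : α ≤ 1) (hCa : 0 < Ca)
    (hc' : ∀ n : ℤ, 1 ≤ n → ∀ U : Finset (ℤ × ℤ), U ⊆ Bq 0 (Λ * n) → c0 ≤ gg Q (Λ * n) n U)
    (ha : ∀ (z : ℤ × ℤ) (R : ℤ) (U : Finset (ℤ × ℤ)) (z' : ℤ × ℤ)
      (d ρ : ℤ), 1 ≤ d → d ≤ ρ → U ⊆ Bq z R → Bq z' ρ ⊆ Bq z R →
      Pr Q U (ow z R) {ω | Jt (Bq z R) {u | ρ ≤ nm (u - z')} (cor (HB z' d)) ω} ≤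
        Ca * ((d : ℝ) / ρ) ^ α)
    (d n ρ r : ℤ) (hd : 1 ≤ d) (hdr : d ≤ r) (hr1 : 2 * r ≤ ρ) (hr2 : ρ ≤ 3 * r) (hρn : ρ ≤ n)
    (hhalf : aa Q d r ≤ 1 / 2) :
    aa Q d (2 * (Λ * n)) ≤ 8 / c0 * ((ρ : ℝ) / n * (d / n)) +
      9 * Ca * ((n : ℝ) / ρ * ((d : ℝ) / ρ) ^ α * aa Q d r) := by
  have hQ0 : 0 < Q := by linarith
  have hdK : d ≤ 2 * (Λ * n) := by nlinarith
  have hrK : r ≤ 2 * (Λ * n) := by nlinarith
  have hdR : (1 : ℝ) ≤ d := by exact_mod_cast hd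
  have hrR1 : 2 * (r : ℝ) ≤ ρ := by exact_mod_cast hr1
  have hrR2 : (ρ : ℝ) ≤ 3 * r := by exact_mod_cast hr2
  have hdrR : (d : ℝ) ≤ r := by exact_mod_cast hdr
  have hρnR : (ρ : ℝ) ≤ n := by exact_mod_cast hρn
  have hr0 : (0 : ℝ) < r := by linarith
  have hρ0 : (0 : ℝ) < ρ := by linarith
  have hn0 : (0 : ℝ) < n := by linarith
  have hAr := aa_mem hQ hdr
  obtain ⟨k, hk1, hk2, hk3⟩ := exists_k (n := n) hd (by omega)
  obtain ⟨m, hm1, hm2, hm3⟩ := exists_k (n := n) (d := r) (by omega) (by omega)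
  have hkR : (1 : ℝ) ≤ k := by exact_mod_cast hk1
  have hmR : (1 : ℝ) ≤ m := by exact_mod_cast hm1
  have hn3 := num1 hkR hmR hdR hn0 hρ0 hrR1 hc0 hk3 hm3
  have hm2R : 2 * (r : ℝ) * m ≤ n := by exact_mod_cast hm2
  have hn4 := num2 hmR hdR hr0 hρ0 hrR2 hCa hα hα1 hAr.1 hm2R
  have hpr : 0 ≤ ((d : ℝ) / r) ^ α := Real.rpow_nonneg (by positivity) _
  obtain ⟨a, hadef⟩ : ∃ a, a = Ca * ((d : ℝ) / r) ^ α := ⟨_, rfl⟩
  have ha0 : 0 ≤ a := by rw [hadef]; exact mul_nonneg hCa.le hpr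
  have hb := basic hQ (Λ := Λ) (n := n) (d := d) (r := r) (k := k) (m := m) hΛ hd hdr
    (by omega) hk2 hm2 hc0 (hc' n (by omega)) ha0
    (fun U z' hU hz' => by rw [hadef]; exact ha 0 (Λ * n) U z' d r hd hdr hU hz')
  rw [← hadef] at hn4
  have hP0p : 0 < p0 Q 0 d (2 * (Λ * n)) := p0_pos hQ hdK
  have hD : (p0 Q 0 d r - p1 Q 0 d r) ≤ 2 * aa Q d r * p0 Q 0 d (2 * (Λ * n)) := by
    have h2 : p1 Q 0 d r ≤ p1 Q 0 d (2 * (Λ * n)) := p1_mono hQ hrK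
    have h3 : p1 Q 0 d (2 * (Λ * n)) ≤ p0 Q 0 d (2 * (Λ * n)) := p1_le_p0 hQ
    have h4 := aa_mul hQ hdr
    have h5 := p0_pos hQ (z := 0) hdr
    have h1 : p0 Q 0 d r ≤ 2 * p0 Q 0 d (2 * (Λ * n)) := by nlinarith
    rw [h4]
    nlinarith [mul_le_mul_of_nonneg_left h1 hAr.1]
  have hD0 : 0 ≤ p0 Q 0 d r - p1 Q 0 d r := sub_nonneg.2 (p1_le_p0 hQ)
  rw [show aa Q d (2 * (Λ * n)) = 1 - p1 Q 0 d (2 * (Λ * n)) / p0 Q 0 d (2 * (Λ * n)) from rfl]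
  generalize aa Q d r = Aa at hn4 hD hAr ⊢
  generalize p0 Q 0 d r - p1 Q 0 d r = Dd at hb hD hD0
  generalize p0 Q 0 d (2 * (Λ * n)) = P0 at hb hD hP0p ⊢
  generalize p1 Q 0 d (2 * (Λ * n)) = P1 at hb ⊢
  have hkm : 0 < (k : ℝ) * (m * c0) := by positivity
  have h1 : 1 - P1 / P0 - (m - 1) * (a * Dd) / P0 ≤ 1 / (k * (m * c0)) := by
    rw [le_div_iff₀ hkm]
    refine le_trans (le_of_eq ?_) hb
    rw [add_div]
    ring
  have h2 : (m - 1) * (a * Dd) / P0 ≤ m * (a * (2 * Aa)) := by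
    rw [div_le_iff₀ hP0p]
    have h3 : (m - 1 : ℝ) * (a * Dd) ≤ m * (a * Dd) :=
      mul_le_mul_of_nonneg_right (by linarith) (mul_nonneg ha0 hD0)
    have h4 : (m : ℝ) * (a * Dd) ≤ m * (a * (2 * Aa * P0)) :=
      mul_le_mul_of_nonneg_left (mul_le_mul_of_nonneg_left hD ha0) (by linarith)
    refine (h3.trans h4).trans (le_of_eq (by ring))
  linarith

end

theorem second_small {κ C A x y : ℝ} (hκ : 1 ≤ κ) (hC : 2 * κ ≤ C) (hA : 1 / 2 < A)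
    (hx : 1 ≤ x) (hy : 1 / κ ≤ y) : 1 ≤ C * (x * y * A) := by
  have hκ0 : 0 < κ := by linarith
  have h1 : 1 / κ ≤ x * y := by
    have := mul_le_mul hx hy (by positivity) (by linarith)
    linarith
  have h8 : 1 / κ * (1 / 2) ≤ x * y * A :=
    mul_le_mul h1 hA.le (by norm_num) (le_trans (by positivity) h1)
  have h10 := mul_le_mul hC h8 (by positivity) (by linarith)
  have h11 : 2 * κ * (1 / κ * (1 / 2)) = 1 := by
    field_simp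
  linarith

theorem mix1_of (hQ : 1 ≤ Q) (hA : M_ARM Q) (hO : M_OPT) : MIX1 Q := by
  have hQ0 : 0 < Q := by linarith
  obtain ⟨⟨Λ, c0, hΛ, hc0, hc⟩, α, Ca, hα, hα1, hCa, ha⟩ := hA
  have hc' : ∀ n : ℤ, 1 ≤ n → ∀ U : Finset (ℤ × ℤ), U ⊆ Bq 0 (Λ * n) →
      c0 ≤ gg Q (Λ * n) n U := fun n hn U hU => hc 0 n U hn hU
  have hc01 : c0 ≤ 1 := (hc' 1 le_rfl ∅ (Finset.empty_subset _)).trans (gg_le_one hQ _ _ _)
  obtain ⟨C1, hC1⟩ : ∃ C1, C1 = 4 / c0 := ⟨_, rfl⟩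
  have hC14 : 4 ≤ C1 := by
    rw [hC1, le_div_iff₀ hc0]
    linarith
  have first := first_bound hQ hΛ hc0 hc'
  rw [← hC1] at first
  have small := small_bound hQ hΛ hC14 first
  have hΛR : (4 : ℝ) ≤ ((2 * Λ : ℤ) : ℝ) := by
    have : (4 : ℤ) ≤ 2 * Λ := by omega
    exact_mod_cast this
  obtain ⟨κ, hκ⟩ : ∃ κ, κ = 12 * ((2 * Λ : ℤ) : ℝ) * C1 := ⟨_, rfl⟩
  have hκ1 : 1 ≤ κ := by rw [hκ]; nlinarith
  obtain ⟨C, hC⟩ : ∃ C, C = max (max (8 / c0) (9 * Ca)) (max (2 * κ) C1) := ⟨_, rfl⟩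
  have hC8 : 8 / c0 ≤ C := hC ▸ (le_max_left _ _).trans (le_max_left _ _)
  have hC9 : 9 * Ca ≤ C := hC ▸ (le_max_right _ _).trans (le_max_left _ _)
  have hCκ : 2 * κ ≤ C := hC ▸ (le_max_left _ _).trans (le_max_right _ _)
  have hCC1 : C1 ≤ C := hC ▸ (le_max_right _ _).trans (le_max_right _ _)
  have hC0 : 0 < C := by linarith
  have eK : ∀ n : ℤ, 2 * Λ * n = 2 * (Λ * n) := fun n => by ring
  have second : ∀ d n ρ : ℤ, 1 ≤ d → 4 * d ≤ ρ → ρ ≤ n → aa Q d (2 * Λ * n) ≤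
      C * ((ρ : ℝ) / n * (d / n) + (n : ℝ) / ρ * ((d : ℝ) / ρ) ^ α * aa Q d (ρ / 2)) := by
    intro d n ρ hd hdρ hρn
    rw [eK]
    obtain ⟨r, hr⟩ : ∃ r, r = ρ / 2 := ⟨_, rfl⟩
    rw [← hr]
    have hr1 : 2 * r ≤ ρ := by omega
    have hr2 : ρ ≤ 3 * r := by omega
    have hdr : d ≤ r := by omega
    have hdK : d ≤ 2 * (Λ * n) := by nlinarith
    have hdR : (1 : ℝ) ≤ d := by exact_mod_cast hd
    have hρn' : (ρ : ℝ) ≤ n := by exact_mod_cast hρn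
    have hdρ' : (4 * d : ℝ) ≤ ρ := by exact_mod_cast hdρ
    have hρ0 : (0 : ℝ) < ρ := by linarith
    have hn0 : (0 : ℝ) < n := by linarith
    have hAr := aa_mem hQ hdr
    have hpow0 : 0 ≤ ((d : ℝ) / ρ) ^ α := Real.rpow_nonneg (by positivity) _
    have hterm : 0 ≤ (n : ℝ) / ρ * ((d : ℝ) / ρ) ^ α * aa Q d r := by
      have : 0 ≤ (n : ℝ) / ρ := by positivity
      exact mul_nonneg (mul_nonneg this hpow0) hAr.1
    have hterm1 : 0 ≤ (ρ : ℝ) / n * (d / n) := by positivity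
    rw [mul_add]
    by_cases hhalf : aa Q d r ≤ 1 / 2
    · refine (second_half hQ hΛ hc0 hα hα1 hCa hc' ha d n ρ r hd hdr hr1 hr2 hρn hhalf).trans ?_
      exact add_le_add (mul_le_mul_of_nonneg_right hC8 hterm1)
        (mul_le_mul_of_nonneg_right hC9 hterm)
    · push Not at hhalf
      have h1 := small d r hd hhalf
      have hrR2 : (ρ : ℝ) ≤ 3 * r := by exact_mod_cast hr2
      have h2 : (ρ : ℝ) ≤ κ * d := by rw [hκ]; linarith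
      have h3 := (aa_mem hQ hdK).2
      have h4 : 1 / κ ≤ (d : ℝ) / ρ := by
        rw [div_le_div_iff₀ (by linarith) hρ0]
        linarith
      have h5 : (d : ℝ) / ρ ≤ 1 := by
        rw [div_le_one hρ0]
        linarith
      have h6 : (d : ℝ) / ρ ≤ ((d : ℝ) / ρ) ^ α := by
        calc (d : ℝ) / ρ = ((d : ℝ) / ρ) ^ (1 : ℝ) := (Real.rpow_one _).symm
          _ ≤ _ := Real.rpow_le_rpow_of_exponent_ge (by positivity) h5 hα1
      have h7 : (1 : ℝ) ≤ n / ρ := by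
        rw [le_div_iff₀ hρ0]
        linarith
      have h9 := second_small hκ1 hCκ hhalf h7 (h4.trans h6)
      have h10 := mul_nonneg hC0.le hterm1
      linarith
  have firstK : ∀ d n : ℤ, 1 ≤ d → d ≤ n → aa Q d (2 * Λ * n) ≤ C * ((d : ℝ) / n) := by
    intro d n hd hdn
    rw [eK]
    refine (first d n hd hdn).trans (mul_le_mul_of_nonneg_right hCC1 ?_)
    have h1 : (0 : ℝ) ≤ d := by exact_mod_cast (by omega : (0 : ℤ) ≤ d)
    have h2 : (0 : ℝ) ≤ n := by exact_mod_cast (by omega : (0 : ℤ) ≤ n)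
    positivity
  obtain ⟨c, C', hc1, hC', hfin⟩ := hO (aa Q) (2 * Λ) C α (by omega) hC0 hα hα1
    (fun d R _ h => aa_mem hQ h) (fun d R R' _ h h' => aa_anti hQ h h') second firstK
  refine ⟨c, C', hc1, hC', fun z d R hz hd hdR => ?_⟩
  rw [p0_tr hQ0 hz, p1_tr hQ0 hz]
  have h1 := hfin d R hd hdR
  have h2 := p0_pos hQ (z := 0) hdR
  unfold aa at h1
  have h3 : 1 - C' * ((d : ℝ) / R) ^ (1 + c) ≤ p1 Q 0 d R / p0 Q 0 d R := by linarith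
  rw [le_div_iff₀ h2] at h3
  exact h3

end Vale.Agent.P167.QM
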