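import Vale.Agent.P167.QM.Defs
import Vale.Agent.P167.FKA.Out

/-!
# P167, general `q`, block Q-MIX1: the scheme (version of helper452)
-/

namespace Vale.Agent.P167.QM

open Finset Vale.Agent.P167.FK Vale.Agent.P167.FKA Relation
open Vale.Agent.P145.FB (PStep PConn)
open Vale.Agent.P167.H259 (f_markov f_fkg f_comp f_comp2 Ex_out cf_cf PC_mono)
open Vale.Agent.P167.H519 (cf_in loc_mono)

variable {Q : ℝ}

theorem mem_Bq {z v : ℤ × ℤ} {R : ℤ} : v ∈ Bq z R ↔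
    z.1 - R ≤ v.1 ∧ v.1 < z.1 + R ∧ z.2 - R ≤ v.2 ∧ v.2 < z.2 + R := by
  simp only [Bq, Finset.mem_product, Finset.mem_Ico, and_assoc]

theorem mem_HB {z v : ℤ × ℤ} {R : ℤ} : v ∈ HB z R ↔ v ∈ Bq z R ∧ z.2 ≤ v.2 := by
  simp only [HB, Finset.mem_filter]

theorem ow_in {z v : ℤ × ℤ} {R : ℤ} (h : v ∈ Bq z R) : ow z R v = false := by
  unfold ow
  rw [cf_in h]
  simp

theorem ow_out {z v : ℤ × ℤ} {R : ℤ} (h : v ∉ Bq z R) : ow z R v = true := by
  unfold ow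
  rw [cf_out h]
  rfl

theorem good_ow (z : ℤ × ℤ) (R : ℤ) : Good (ow z R) := f_good.1 _ _ _ f_good.2.2

theorem not_mem_of_ow {z v : ℤ × ℤ} {R : ℤ} (h : ow z R v = true) : v ∉ Bq z R := fun h' => by
  rw [ow_in h'] at h
  exact absurd h (by simp)

/-- Closing squares of the box does not change `ow`. -/
theorem ow_cf {z : ℤ × ℤ} {R : ℤ} {b : Finset (ℤ × ℤ)} (hb : b ⊆ Bq z R) :
    cf b (ow z R) ∅ = ow z R := by
  funext v
  by_cases hv : v ∈ b
  · rw [cf_in hv, ow_in (hb hv)]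
    simp
  · rw [cf_out hv]

/-! ### Comparison of the probabilities of closed sets -/

theorem Cl_up (hQ : 1 ≤ Q) {U U' b : Finset (ℤ × ℤ)} (hU : U ⊆ U') {η η' : Cfg} (hη : Good η)
    (hη' : Good η') (h : ∀ v, v ∉ U → η v = true → v ∉ U' ∧ η' v = true) :
    Pr Q U' η' (Cl b) ≤ Pr Q U η (Cl b) := by
  have h1 := Ex_up hQ hU (dec_Cl b).incF hη hη' h
  rw [Ex_neg, Ex_neg] at h1
  unfold Pr
  linarith

theorem Cl_dn (hQ : 1 ≤ Q) {U U' b : Finset (ℤ × ℤ)} (hU : U ⊆ U') {η η' : Cfg} (hη : Good η)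
    (hη' : Good η') (h : ∀ v, v ∉ U' → η' v = true → η v = true)
    (h' : ∀ v ∈ U', v ∉ U → η v = true) : Pr Q U η (Cl b) ≤ Pr Q U' η' (Cl b) := by
  have h1 := Ex_dn hQ hU (dec_Cl b).incF hη hη' h h'
  rw [Ex_neg, Ex_neg] at h1
  unfold Pr
  linarith

/-- Free boundary conditions, larger domain. -/
theorem Cl_free (hQ : 1 ≤ Q) {U U' b : Finset (ℤ × ℤ)} (hU : U ⊆ U') :
    Pr Q U' eta0 (Cl b) ≤ Pr Q U eta0 (Cl b) :=
  Cl_up hQ hU f_good.2.1 f_good.2.1 fun v _ h => absurd h (by simp [eta0])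

theorem HB_mono {z : ℤ × ℤ} {r R : ℤ} (h : r ≤ R) : HB z r ⊆ HB z R := by
  intro v hv
  rw [mem_HB, mem_Bq] at *
  omega

theorem p0_anti (hQ : 1 ≤ Q) {z : ℤ × ℤ} {d R R' : ℤ} (h : R ≤ R') : p0 Q z d R' ≤ p0 Q z d R :=
  Cl_free hQ (HB_mono h)

theorem p1_mono (hQ : 1 ≤ Q) {z : ℤ × ℤ} {d R R' : ℤ} (h : R ≤ R') : p1 Q z d R ≤ p1 Q z d R' := by
  refine Cl_dn hQ (HB_mono h) (good_ow _ _) (good_ow _ _) ?_ ?_
  · intro v _ hv
    refine ow_out fun hv' => not_mem_of_ow hv ?_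
    rw [mem_Bq] at *
    omega
  · intro v hv hv'
    refine ow_out fun h1 => hv' ?_
    rw [mem_HB] at *
    exact ⟨h1, hv.2⟩

theorem p1_le_p0 (hQ : 1 ≤ Q) {z : ℤ × ℤ} {d R : ℤ} : p1 Q z d R ≤ p0 Q z d R := by
  refine Cl_up hQ subset_rfl f_good.2.1 (good_ow _ _) fun v _ h => absurd h (by simp [eta0])

theorem p0_pos (hQ : 1 ≤ Q) {z : ℤ × ℤ} {d R : ℤ} (h : d ≤ R) : 0 < p0 Q z d R :=
  Pr_Cl_pos hQ (HB_mono h) _

theorem p1_nonneg (hQ : 1 ≤ Q) {z : ℤ × ℤ} {d R : ℤ} : 0 ≤ p1 Q z d R :=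
  Pr_nonneg (by linarith) _

/-! ### Translations -/

theorem tr_image (p : ℤ × ℤ) (z : ℤ × ℤ) (R : ℤ) :
    (HB z R).image (fun v : ℤ × ℤ => (v.1 + p.1, v.2 + p.2)) = HB (z + p) R := by
  ext v
  rw [Finset.mem_image]
  constructor
  · rintro ⟨w, hw, rfl⟩
    rw [mem_HB, mem_Bq] at *
    simp only [Prod.fst_add, Prod.snd_add]
    omega
  · intro hv
    refine ⟨(v.1 - p.1, v.2 - p.2), ?_, by simp⟩
    rw [mem_HB, mem_Bq] at *
    simp only [Prod.fst_add, Prod.snd_add] at hv ⊢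
    omega

theorem pr_tr' (hQ0 : 0 < Q) {p : ℤ × ℤ} (hp : Even (p.1 + p.2)) {z : ℤ × ℤ} {d R : ℤ}
    {η η' : Cfg} (hη : Good η) (h : ∀ v : ℤ × ℤ, η (v.1 + p.1, v.2 + p.2) = η' v) :
    Pr Q (HB z R) η' (Cl (HB z d)) = Pr Q (HB (z + p) R) η (Cl (HB (z + p) d)) := by
  have h1 := (sy_tr p hp).2 Q (HB z R) η ((Cl (HB z d)).indicator 1) hQ0 hη
  have e1 : (η ∘ fun v : ℤ × ℤ => (v.1 + p.1, v.2 + p.2)) = η' := funext h
  rw [e1, tr_image] at h1
  refine h1.trans (Ex_congr fun S _ => ?_)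
  by_cases h2 : cf (HB (z + p) R) η S ∈ Cl (HB (z + p) d)
  · rw [Set.indicator_of_mem h2, Set.indicator_of_mem]
    · rfl
    · intro v hv
      refine h2 _ ?_
      rw [mem_HB, mem_Bq] at *
      simp only [Prod.fst_add, Prod.snd_add]
      omega
  · rw [Set.indicator_of_notMem h2, Set.indicator_of_notMem]
    intro h3
    refine h2 fun v hv => ?_
    have h4 := h3 (v.1 - p.1, v.2 - p.2) (by
      rw [mem_HB, mem_Bq] at *
      simp only [Prod.fst_add, Prod.snd_add] at hv ⊢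
      omega)
    simpa using h4

theorem p0_tr (hQ0 : 0 < Q) {z : ℤ × ℤ} (hz : Even (z.1 + z.2)) {d R : ℤ} :
    p0 Q z d R = p0 Q 0 d R := by
  have h := pr_tr' (Q := Q) hQ0 hz (z := 0) (d := d) (R := R) (η := eta0) (η' := eta0)
    f_good.2.1 (fun _ => rfl)
  rw [zero_add] at h
  exact h.symm

theorem p1_tr (hQ0 : 0 < Q) {z : ℤ × ℤ} (hz : Even (z.1 + z.2)) {d R : ℤ} :
    p1 Q z d R = p1 Q 0 d R := by
  have h := pr_tr' (Q := Q) hQ0 hz (z := 0) (d := d) (R := R) (η := ow z R) (η' := ow 0 R)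
    (good_ow _ _) (fun v => by
      by_cases hv : v ∈ Bq 0 R
      · rw [ow_in hv, ow_in]
        rw [mem_Bq] at *
        simp only [Prod.fst_zero, Prod.snd_zero] at hv
        omega
      · rw [ow_out hv, ow_out]
        rw [mem_Bq] at *
        simp only [Prod.fst_zero, Prod.snd_zero] at hv
        omega)
  rw [zero_add] at h
  exact h.symm

/-! ### The environment: wired outside of the box `(0, N)` -/

theorem out_con {N : ℤ} {A : Finset (ℤ × ℤ)} (hA : A ⊆ Bq 0 N) {v v' u u' : ℤ × ℤ}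
    (hv : v ∉ Bq 0 N) (hv' : v' ∉ Bq 0 N) (hu : Even (u.1 + u.2)) (hvu : Cor v u)
    (hu' : Even (u'.1 + u'.2)) (hvu' : Cor v' u') :
    ReflTransGen (PStep {v | v ∉ A ∧ ow 0 N v = true}) u u' := by
  rw [mem_Bq] at hv hv'
  simp only [Prod.fst_zero, Prod.snd_zero] at hv hv'
  obtain ⟨h1, h2⟩ := hvu
  obtain ⟨h3, h4⟩ := hvu'
  refine outside_conn (a := -N) (b := N - 1) (c := -N) (d := N - 1) ?_ hu hu' (by omega)
    (by omega)
  intro w hw
  have h5 : w ∉ Bq 0 N := by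
    rw [mem_Bq]
    simp only [Prod.fst_zero, Prod.snd_zero]
    omega
  exact ⟨fun h => h5 (hA h), ow_out h5⟩

/-- The pair (everything closed, outside open). -/
theorem adm_out {N : ℤ} {A : Finset (ℤ × ℤ)} : Adm A eta0 (ow 0 N) ∅ (Tout 0 N) where
  le v _ h := absurd h (by simp [eta0])
  out v _ h := Or.inr fun u hu hvu => ⟨hu, v, not_mem_of_ow h, hvu⟩
  even u hu := hu.1
  opn v hv := absurd hv (Set.notMem_empty v)
  con v hv := absurd hv (Set.notMem_empty v)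

/-- The pair (`b` closed, `b` in the state `S`). -/
theorem adm_blk {N : ℤ} {U b S : Finset (ℤ × ℤ)} (hU : U ⊆ Bq 0 N) :
    Adm (U \ b) (ow 0 N) (cf U (ow 0 N) S) {v | v ∉ Bq 0 N} (cor b) where
  le v _ h := by
    rw [cf_out (fun h' => not_mem_of_ow h (hU h'))]
    exact h
  out v hv h := by
    by_cases hvb : v ∈ b
    · exact Or.inr fun u hu hvu => ⟨hu, v, hvb, hvu⟩
    · left
      have h1 : v ∉ U := fun h' => hv (Finset.mem_sdiff.2 ⟨h', hvb⟩)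
      rw [cf_out h1] at h
      exact not_mem_of_ow h
  even u hu := hu.1
  opn v hv := ⟨fun h => hv (hU (Finset.mem_sdiff.1 h).1), ow_out hv⟩
  con v hv v' hv' u u' hu hvu hu' hvu' :=
    out_con (Finset.sdiff_subset.trans hU) hv hv' hu hvu hu' hvu'

/-- Paths inside `U` or inside the box. -/
theorem Jt_box {N : ℤ} {U : Finset (ℤ × ℤ)} (hU : U ⊆ Bq 0 N) (X T : Set (ℤ × ℤ)) (S : Finset (ℤ × ℤ)) :
    Jt U X T (cf U (ow 0 N) S) ↔ Jt (Bq 0 N) X T (cf U (ow 0 N) S) := by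
  have h : Op U (cf U (ow 0 N) S) = Op (Bq 0 N) (cf U (ow 0 N) S) := by
    ext v
    constructor
    · rintro ⟨h1, h2⟩
      exact ⟨hU h1, h2⟩
    · rintro ⟨h1, h2⟩
      refine ⟨?_, h2⟩
      by_contra h3
      rw [cf_out h3, ow_in h1] at h2
      exact absurd h2 (by simp)
  unfold Jt
  rw [h]

theorem inc_Jt (A : Finset (ℤ × ℤ)) (X T : Set (ℤ × ℤ)) : IncS {ω | Jt A X T ω} := by
  rintro ω ω' h ⟨s, hs, u, hu, h1⟩
  exact ⟨s, hs, u, hu, rtg_mono' (F := Op A ω) (F' := Op A ω') (fun v hv => ⟨hv.1, h v hv.2⟩) h1⟩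

/-- The probability of no connection. -/
noncomputable def gg (Q : ℝ) (N n : ℤ) (U : Finset (ℤ × ℤ)) : ℝ :=
  1 - Pr Q U (ow 0 N) {ω | Jt (Bq 0 N) {u | nm (u - 0) ≤ n} (Tout 0 N) ω}

theorem gg_le_one (hQ : 1 ≤ Q) (N n : ℤ) (U : Finset (ℤ × ℤ)) : gg Q N n U ≤ 1 := by
  have := Pr_nonneg (D := U) (η := ow 0 N) (Q := Q) (by linarith)
    {ω | Jt (Bq 0 N) {u | nm (u - 0) ≤ n} (Tout 0 N) ω}
  unfold gg
  linarith

theorem gg_anti (hQ : 1 ≤ Q) {N n : ℤ} {U U' : Finset (ℤ × ℤ)} (h : U ⊆ U') (hU : U' ⊆ Bq 0 N) :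
    gg Q N n U' ≤ gg Q N n U := by
  have h1 := Ex_up hQ h (inc_Jt (Bq 0 N) {u | nm (u - 0) ≤ n} (Tout 0 N)).incF (good_ow 0 N)
    (good_ow 0 N) fun v _ hv => ⟨fun h' => not_mem_of_ow hv (hU h'), hv⟩
  unfold gg Pr
  linarith

/-- **One term.** -/
theorem one_term (hQ : 1 ≤ Q) {N n : ℤ} {U b : Finset (ℤ × ℤ)} (hU : U ⊆ Bq 0 N) (hb : b ⊆ U)
    (hbn : ∀ u ∈ cor b, nm u ≤ n) :
    gg Q N n U * Pr Q U eta0 (Cl b) ≤ Pr Q U (ow 0 N) (Cl b) * gg Q N n (U \ b) := by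
  have hQ0 : 0 < Q := by linarith
  set X : Set (ℤ × ℤ) := {u | nm (u - 0) ≤ n} with hX
  set J : Set Cfg := {ω | Jt (Bq 0 N) X (Tout 0 N) ω} with hJ
  have h1 := rel_dec hQ (V := b) (X := X) (A := U) (fun v hv u hu hvu => by
    show nm (u - 0) ≤ n
    rw [sub_zero]
    exact hbn u ⟨hu, v, hv, hvu⟩) (dec_Cl b).incF (loc_Cl b) hb f_good.2.1 (good_ow 0 N)
    (adm_out (N := N))
  have hpt : ∀ S, {ω | Jt U X (Tout 0 N) ω}.indicator (1 : Cfg → ℝ) (cf U (ow 0 N) S) =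
      J.indicator 1 (cf U (ow 0 N) S) := by
    intro S
    by_cases h : Jt U X (Tout 0 N) (cf U (ow 0 N) S)
    · rw [Set.indicator_of_mem (show _ ∈ {ω | Jt U X (Tout 0 N) ω} from h),
        Set.indicator_of_mem (show _ ∈ J from (Jt_box hU _ _ S).1 h)]
    · rw [Set.indicator_of_notMem (show _ ∉ {ω | Jt U X (Tout 0 N) ω} from h),
        Set.indicator_of_notMem (show _ ∉ J from fun h' => h ((Jt_box hU _ _ S).2 h'))]
  have e1 : Pr Q U (ow 0 N) {ω | Jt U X (Tout 0 N) ω} = Pr Q U (ow 0 N) J :=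
    Ex_congr fun S _ => hpt S
  have e2 : Ex Q U (ow 0 N) (fun ω => (Cl b).indicator 1 ω *
      (1 - {ω | Jt U X (Tout 0 N) ω}.indicator 1 ω)) =
      Pr Q U (ow 0 N) (Cl b) * gg Q N n (U \ b) := by
    have h2 := Ex_Cl hQ0 (D := U) (S := b) (good_ow 0 N) (fun ω => 1 - J.indicator 1 ω)
    rw [ow_cf (hb.trans hU), Ex_one_sub hQ0] at h2
    refine Eq.trans (Ex_congr fun S _ => ?_) h2
    rw [hpt S]
  rw [e1, e2] at h1
  exact h1

/-- **Transfer for a block.** -/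
theorem blk_transfer (hQ : 1 ≤ Q) {N : ℤ} {U b : Finset (ℤ × ℤ)} {z z' : ℤ × ℤ} {d r : ℤ}
    (hU : U ⊆ Bq 0 N) (hb : b = HB z' d) (hd : d ≤ r) (hB : HB z r ⊆ U \ b)
    (hlow : ∀ v ∈ Bq z r, v.2 < z.2 → v ∉ U ∧ v ∈ Bq 0 N)
    (hfar : ∀ u ∈ cor (HB z r), r ≤ nm (u - z')) {a : ℝ}
    (ha : Pr Q U (ow 0 N) {ω | Jt (Bq 0 N) {u | r ≤ nm (u - z')} (cor (HB z' d)) ω} ≤ a) :
    Pr Q (U \ b) (ow 0 N) (Cl (HB z d)) - Pr Q U (ow 0 N) (Cl (HB z d)) ≤
      a * (p0 Q z d r - p1 Q z d r) := by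
  have hQ0 : 0 < Q := by linarith
  set A := U \ b with hA
  set ξ := ow 0 N with hξ
  set f : Cfg → ℝ := fun ω => - (Cl (HB z d)).indicator 1 ω with hf
  have hfi : IncF f := (dec_Cl _).incF
  have hAU : A ⊆ U := Finset.sdiff_subset
  have hL : Loc (HB z r) f := by
    intro ω ω' h
    simp only [hf]
    rw [loc_Cl (HB z d) ω ω' fun v hv => h v (HB_mono hd hv)]
  -- one state of the block
  have key : ∀ S ⊆ U, Ex Q A (cf U ξ S) f - Ex Q A ξ f ≤
      Pr Q A (cf U ξ S) {ω | Jt A (cor (HB z r)) (cor b) ω} * (- p1 Q z d r - - p0 Q z d r) := by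
    intro S hS
    refine transfer hQ hfi hL hB (good_ow 0 N) (f_good.1 _ _ _ (good_ow 0 N)) (adm_blk hU) ?_ ?_
    · intro S' hS'
      have h1 : p1 Q z d r ≤ Pr Q (HB z r) (cf A (cf U ξ S) S') (Cl (HB z d)) := by
        have h2 := comp_out hQ (D := HB z r) (η := cf A (cf U ξ S) S') (η' := ow z r)
          (dec_Cl (HB z d)).incF (f_good.1 _ _ _ (f_good.1 _ _ _ (good_ow 0 N))) (good_ow _ _)
          (fun v hv hvt => by
            refine ow_out fun h3 => ?_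
            have h4 : v.2 < z.2 := by
              by_contra h5
              exact hv (mem_HB.2 ⟨h3, not_lt.1 h5⟩)
            obtain ⟨h5, h6⟩ := hlow v h3 h4
            rw [cf_out (fun h7 => h5 (hAU h7)), cf_out h5, hξ, ow_in h6] at hvt
            exact absurd hvt (by simp))
        rw [Ex_neg, Ex_neg] at h2
        unfold p1 Pr
        linarith
      show Ex Q (HB z r) (cf A (cf U ξ S) S') (fun ω => - (Cl (HB z d)).indicator 1 ω) ≤ _
      rw [Ex_neg]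
      unfold Pr at h1
      linarith
    · have h1 : Pr Q A ξ (Cl (HB z d)) ≤ p0 Q z d r :=
        Cl_up hQ hB f_good.2.1 (good_ow _ _) fun v _ h => absurd h (by simp [eta0])
      show _ ≤ Ex Q A ξ (fun ω => - (Cl (HB z d)).indicator 1 ω)
      rw [Ex_neg]
      unfold Pr at h1
      linarith
  have hD : 0 ≤ p0 Q z d r - p1 Q z d r := sub_nonneg.2 (p1_le_p0 hQ)
  have h1 : Ex Q U ξ f - Ex Q A ξ f ≤ Pr Q U ξ {ω | Jt A (cor (HB z r)) (cor b) ω} *
      (p0 Q z d r - p1 Q z d r) := by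
    have h2 : Ex Q U ξ f = Ex Q U ξ (fun ω => Ex Q A ω f) :=
      f_markov Q A U ξ f hQ0 hAU (good_ow 0 N)
    have h3 : Pr Q U ξ {ω | Jt A (cor (HB z r)) (cor b) ω} =
        Ex Q U ξ (fun ω => Pr Q A ω {ω | Jt A (cor (HB z r)) (cor b) ω}) :=
      f_markov Q A U ξ _ hQ0 hAU (good_ow 0 N)
    have h4 : Ex Q U ξ f - Ex Q A ξ f = Ex Q U ξ (fun ω => Ex Q A ω f - Ex Q A ξ f) := by
      rw [Ex_sub, ← h2, Ex_const hQ0]
    rw [h4, h3, mul_comm, ← Ex_mul_left]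
    refine Ex_mono hQ0 fun S hS => ?_
    refine (key S hS).trans (le_of_eq ?_)
    ring
  have h2 : Pr Q U ξ {ω | Jt A (cor (HB z r)) (cor b) ω} ≤ a := by
    refine le_trans (Pr_mono hQ0 ?_) ha
    rintro ω ⟨s, hs, u, hu, h3⟩
    refine ⟨s, by rw [← hb]; exact hs, u, hfar u hu, rtg_mono' (F := Op A ω)
      (F' := Op (Bq 0 N) ω) (fun v hv => ⟨hU (hAU hv.1), hv.2⟩) h3⟩
  have h3 : Ex Q U ξ f - Ex Q A ξ f = Pr Q A ξ (Cl (HB z d)) - Pr Q U ξ (Cl (HB z d)) := by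
    simp only [hf]
    rw [Ex_neg, Ex_neg]
    unfold Pr
    ring
  rw [← h3]
  exact h1.trans (mul_le_mul_of_nonneg_right h2 hD)

/-! ### The row of blocks -/

/-- The squares of the box at level at least `h`. -/
noncomputable def lev (N h : ℤ) : Finset (ℤ × ℤ) := (Bq 0 N).filter (fun v => h ≤ v.2)

theorem mem_lev {N h : ℤ} {v : ℤ × ℤ} : v ∈ lev N h ↔ v ∈ Bq 0 N ∧ h ≤ v.2 := by
  simp only [lev, Finset.mem_filter]

/-- The centres of the blocks. -/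
def zz (r d : ℤ) (j i : ℕ) : ℤ × ℤ := (2 * r * i, 2 * d * j)

/-- The first `i` blocks of the layer `j`. -/
noncomputable def SS (r d : ℤ) (j i : ℕ) : Finset (ℤ × ℤ) :=
  (Finset.range i).biUnion fun l => HB (zz r d j l) d

theorem mem_SS {r d : ℤ} {j i : ℕ} {v : ℤ × ℤ} :
    v ∈ SS r d j i ↔ ∃ l < i, v ∈ HB (zz r d j l) d := by
  simp only [SS, Finset.mem_biUnion, Finset.mem_range]

/-- The domain after closing the first `i` blocks of the layer `j`. -/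
noncomputable def VV (N r d : ℤ) (j i : ℕ) : Finset (ℤ × ℤ) := lev N (2 * d * j) \ SS r d j i

theorem VV_zero (N r d : ℤ) (j : ℕ) : VV N r d j 0 = lev N (2 * d * j) := by
  unfold VV SS
  simp

theorem VV_succ (N r d : ℤ) (j i : ℕ) :
    VV N r d j (i + 1) = VV N r d j i \ HB (zz r d j i) d := by
  ext v
  simp only [VV, Finset.mem_sdiff, mem_SS, not_exists, not_and]
  constructor
  · rintro ⟨h1, h2⟩
    exact ⟨⟨h1, fun l hl => h2 l (by omega)⟩, h2 i (by omega)⟩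
  · rintro ⟨⟨h1, h2⟩, h3⟩
    refine ⟨h1, fun l hl => ?_⟩
    rcases Nat.lt_succ_iff_lt_or_eq.1 hl with h | h
    · exact h2 l h
    · rw [h]; exact h3

theorem VV_sub (N r d : ℤ) (j i : ℕ) : VV N r d j i ⊆ Bq 0 N := by
  intro v hv
  exact (mem_lev.1 (Finset.mem_sdiff.1 hv).1).1

section

variable {Λ n d r : ℤ} {k m : ℕ}

/-- The block is in the domain. -/
theorem blk_sub (hΛ : 2 ≤ Λ) (hd : 1 ≤ d) (hdr : d ≤ r) (hr : r ≤ n) (hk : 2 * d * k ≤ n)
    (hm : 2 * r * m ≤ n) {i j : ℕ} (hi : i < m) (hj : j < k) :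
    HB (zz r d j i) d ⊆ VV (Λ * n) r d j i := by
  have hi' : (i : ℤ) + 1 ≤ m := by exact_mod_cast hi
  have hj' : (j : ℤ) + 1 ≤ k := by exact_mod_cast hj
  have h0 : (0 : ℤ) ≤ i := by positivity
  have h0' : (0 : ℤ) ≤ j := by positivity
  have e1 : 2 * n ≤ Λ * n := by nlinarith
  have e2 : 2 * r * i + 2 * r ≤ n := by nlinarith
  have e3 : 2 * d * j + 2 * d ≤ n := by nlinarith
  have e4 : 0 ≤ 2 * r * i := by nlinarith [mul_nonneg (show (0 : ℤ) ≤ r by omega) h0]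
  have e5 : 0 ≤ 2 * d * j := by nlinarith [mul_nonneg (show (0 : ℤ) ≤ d by omega) h0']
  intro v hv
  rw [mem_HB, mem_Bq] at hv
  simp only [zz] at hv
  refine Finset.mem_sdiff.2 ⟨mem_lev.2 ⟨mem_Bq.2 ?_, hv.2⟩, fun h => ?_⟩
  · simp only [Prod.fst_zero, Prod.snd_zero]
    omega
  · obtain ⟨l, hl, h1⟩ := mem_SS.1 h
    rw [mem_HB, mem_Bq] at h1
    simp only [zz] at h1
    have hl' : (l : ℤ) + 1 ≤ i := by exact_mod_cast hl
    have e6 : 2 * r * l + 2 * r ≤ 2 * r * i := by nlinarith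
    omega

theorem blk_cor (hd : 1 ≤ d) (hdr : d ≤ r) (hk : 2 * d * k ≤ n)
    (hm : 2 * r * m ≤ n) {i j : ℕ} (hi : i < m) (hj : j < k) :
    ∀ u ∈ cor (HB (zz r d j i) d), nm u ≤ n := by
  have hi' : (i : ℤ) + 1 ≤ m := by exact_mod_cast hi
  have hj' : (j : ℤ) + 1 ≤ k := by exact_mod_cast hj
  have h0 : (0 : ℤ) ≤ i := by positivity
  have h0' : (0 : ℤ) ≤ j := by positivity
  have e2 : 2 * r * i + 2 * r ≤ n := by nlinarith
  have e3 : 2 * d * j + 2 * d ≤ n := by nlinarith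
  have e4 : 0 ≤ 2 * r * i := by nlinarith [mul_nonneg (show (0 : ℤ) ≤ r by omega) h0]
  have e5 : 0 ≤ 2 * d * j := by nlinarith [mul_nonneg (show (0 : ℤ) ≤ d by omega) h0']
  rintro u ⟨-, v, hv, hvu⟩
  rw [mem_HB, mem_Bq] at hv
  simp only [zz] at hv
  obtain ⟨h1, h2⟩ := hvu
  rw [nm_le_iff]
  omega

/-- The upper bound for the wired probability after closing blocks. -/
theorem pw_le (hQ : 1 ≤ Q) (hΛ : 2 ≤ Λ) (hd : 1 ≤ d) (hdr : d ≤ r) (hr : r ≤ n)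
    (hk : 2 * d * k ≤ n) (hm : 2 * r * m ≤ n) {a : ℝ}
    (ha : ∀ (U : Finset (ℤ × ℤ)) (z' : ℤ × ℤ), U ⊆ Bq 0 (Λ * n) → Bq z' r ⊆ Bq 0 (Λ * n) →
      Pr Q U (ow 0 (Λ * n)) {ω | Jt (Bq 0 (Λ * n)) {u | r ≤ nm (u - z')} (cor (HB z' d)) ω} ≤ a)
    {i j : ℕ} (hi : i < m) (hj : j < k) : ∀ l ≤ i,
    Pr Q (VV (Λ * n) r d j l) (ow 0 (Λ * n)) (Cl (HB (zz r d j i) d)) ≤
      p1 Q 0 d (2 * (Λ * n)) + l * (a * (p0 Q 0 d r - p1 Q 0 d r)) := by
  have hQ0 : 0 < Q := by linarith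
  have hi' : (i : ℤ) + 1 ≤ m := by exact_mod_cast hi
  have hj' : (j : ℤ) + 1 ≤ k := by exact_mod_cast hj
  have h0 : (0 : ℤ) ≤ i := by positivity
  have h0' : (0 : ℤ) ≤ j := by positivity
  have e1 : 2 * n ≤ Λ * n := by nlinarith
  have e2 : 2 * r * i + 2 * r ≤ n := by nlinarith
  have e3 : 2 * d * j + 2 * d ≤ n := by nlinarith
  have e4 : 0 ≤ 2 * r * i := by nlinarith [mul_nonneg (show (0 : ℤ) ≤ r by omega) h0]
  have e5 : 0 ≤ 2 * d * j := by nlinarith [mul_nonneg (show (0 : ℤ) ≤ d by omega) h0']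
  have hze : Even ((zz r d j i).1 + (zz r d j i).2) := by
    simp only [zz]
    exact ⟨r * i + d * j, by ring⟩
  intro l
  induction l with
  | zero =>
    intro _
    rw [VV_zero]
    simp only [CharP.cast_eq_zero, zero_mul, add_zero]
    rw [← p1_tr hQ0 hze]
    refine Cl_dn hQ (U' := HB (zz r d j i) (2 * (Λ * n))) ?_ (good_ow _ _) (good_ow _ _) ?_ ?_
    · intro v hv
      rw [mem_lev, mem_Bq] at hv
      rw [mem_HB, mem_Bq]
      simp only [zz, Prod.fst_zero, Prod.snd_zero] at hv ⊢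
      omega
    · intro v _ hv
      refine ow_out fun h => not_mem_of_ow hv ?_
      rw [mem_Bq] at h ⊢
      simp only [zz, Prod.fst_zero, Prod.snd_zero] at h ⊢
      omega
    · intro v hv hv'
      refine ow_out fun h => hv' (mem_lev.2 ⟨h, ?_⟩)
      rw [mem_HB] at hv
      exact hv.2
  | succ l ih =>
    intro hl
    have hl' : (l : ℤ) + 1 ≤ i := by exact_mod_cast hl
    have hl0 : (0 : ℤ) ≤ l := by positivity
    have e6 : 2 * r * l + 2 * r ≤ 2 * r * i := by nlinarith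
    have e7 : 0 ≤ 2 * r * l := by nlinarith [mul_nonneg (show (0 : ℤ) ≤ r by omega) hl0]
    have h1 := ih (by omega)
    have h2 := blk_transfer hQ (N := Λ * n) (U := VV (Λ * n) r d j l)
      (b := HB (zz r d j l) d) (z := zz r d j i) (z' := zz r d j l) (d := d) (r := r)
      (VV_sub _ _ _ _ _) rfl hdr ?_ ?_ ?_ (a := a) (ha _ _ (VV_sub _ _ _ _ _) ?_)
    · rw [VV_succ]
      rw [p0_tr hQ0 hze, p1_tr hQ0 hze] at h2
      push_cast
      linarith
    · intro v hv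
      rw [mem_HB, mem_Bq] at hv
      simp only [zz] at hv
      rw [← VV_succ]
      refine Finset.mem_sdiff.2 ⟨mem_lev.2 ⟨mem_Bq.2 ?_, hv.2⟩, fun h => ?_⟩
      · simp only [Prod.fst_zero, Prod.snd_zero]
        omega
      · obtain ⟨l', hl', h1⟩ := mem_SS.1 h
        rw [mem_HB, mem_Bq] at h1
        simp only [zz] at h1
        have hl'' : (l' : ℤ) ≤ l := by exact_mod_cast Nat.lt_succ_iff.1 hl'
        have e8 : 2 * r * l' ≤ 2 * r * l := by nlinarith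
        omega
    · intro v hv hv2
      rw [mem_Bq] at hv
      simp only [zz] at hv hv2
      refine ⟨fun h => ?_, mem_Bq.2 ?_⟩
      · have := (mem_lev.1 (Finset.mem_sdiff.1 h).1).2
        omega
      · simp only [Prod.fst_zero, Prod.snd_zero]
        omega
    · rintro u ⟨-, v, hv, hvu⟩
      rw [mem_HB, mem_Bq] at hv
      simp only [zz] at hv ⊢
      obtain ⟨h1, h2⟩ := hvu
      rw [le_nm_iff]
      simp only [Prod.fst_sub, Prod.snd_sub]
      omega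
    · intro v hv
      rw [mem_Bq] at hv ⊢
      simp only [zz, Prod.fst_zero, Prod.snd_zero] at hv ⊢
      omega

/-- **The basic inequality.** -/
theorem basic (hQ : 1 ≤ Q) (hΛ : 2 ≤ Λ) (hd : 1 ≤ d) (hdr : d ≤ r) (hr : r ≤ n)
    (hk : 2 * d * k ≤ n) (hm : 2 * r * m ≤ n) {c0 a : ℝ} (hc0 : 0 < c0)
    (hc : ∀ U : Finset (ℤ × ℤ), U ⊆ Bq 0 (Λ * n) → c0 ≤ gg Q (Λ * n) n U)
    (ha0 : 0 ≤ a)
    (ha : ∀ (U : Finset (ℤ × ℤ)) (z' : ℤ × ℤ), U ⊆ Bq 0 (Λ * n) → Bq z' r ⊆ Bq 0 (Λ * n) →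
      Pr Q U (ow 0 (Λ * n)) {ω | Jt (Bq 0 (Λ * n)) {u | r ≤ nm (u - z')} (cor (HB z' d)) ω} ≤ a) :
    (k : ℝ) * (m * (c0 * (1 - (p1 Q 0 d (2 * (Λ * n)) +
      (m - 1) * (a * (p0 Q 0 d r - p1 Q 0 d r))) / p0 Q 0 d (2 * (Λ * n))))) ≤ 1 := by
  have hQ0 : 0 < Q := by linarith
  have hn : 1 ≤ n := by omega
  have hdN : d ≤ 2 * (Λ * n) := by nlinarith
  set P0 := p0 Q 0 d (2 * (Λ * n)) with hP0
  set P1 := p1 Q 0 d (2 * (Λ * n)) with hP1
  set Dd := p0 Q 0 d r - p1 Q 0 d r with hDd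
  have hP0p : 0 < P0 := p0_pos hQ hdN
  have hDd0 : 0 ≤ Dd := sub_nonneg.2 (p1_le_p0 hQ)
  set N := Λ * n with hN
  set s : ℝ := c0 * (1 - (P1 + (m - 1) * (a * Dd)) / P0) with hs
  -- one block
  have hblk : ∀ i j : ℕ, i < m → j < k →
      s ≤ gg Q N n (VV N r d j (i + 1)) - gg Q N n (VV N r d j i) := by
    intro i j hi hj
    have hsub := blk_sub (Λ := Λ) hΛ hd hdr hr hk hm hi hj
    have h1 := one_term hQ (N := N) (n := n) (VV_sub N r d j i) hsub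
      (blk_cor hd hdr hk hm hi hj)
    rw [← VV_succ] at h1
    have h2 := pw_le hQ hΛ hd hdr hr hk hm ha hi hj i le_rfl
    have hze : Even ((zz r d j i).1 + (zz r d j i).2) := by
      simp only [zz]
      exact ⟨r * i + d * j, by ring⟩
    have hi' : (i : ℤ) + 1 ≤ m := by exact_mod_cast hi
    have hj' : (j : ℤ) + 1 ≤ k := by exact_mod_cast hj
    have h0 : (0 : ℤ) ≤ i := by positivity
    have h0' : (0 : ℤ) ≤ j := by positivity
    have e1 : 2 * n ≤ Λ * n := by nlinarith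
    have e2 : 2 * r * i + 2 * r ≤ n := by nlinarith
    have e3 : 2 * d * j + 2 * d ≤ n := by nlinarith
    have e4 : 0 ≤ 2 * r * i := by nlinarith [mul_nonneg (show (0 : ℤ) ≤ r by omega) h0]
    have e5 : 0 ≤ 2 * d * j := by nlinarith [mul_nonneg (show (0 : ℤ) ≤ d by omega) h0']
    have h3 : P0 ≤ Pr Q (VV N r d j i) eta0 (Cl (HB (zz r d j i) d)) := by
      rw [hP0, ← p0_tr hQ0 hze]
      refine Cl_free hQ fun v hv => ?_
      have h4 := mem_lev.1 (Finset.mem_sdiff.1 hv).1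
      rw [mem_Bq] at h4
      rw [mem_HB, mem_Bq]
      simp only [zz, Prod.fst_zero, Prod.snd_zero] at h4 ⊢
      omega
    have h4 : Pr Q (VV N r d j i) (ow 0 N) (Cl (HB (zz r d j i) d)) ≤
        Pr Q (VV N r d j i) eta0 (Cl (HB (zz r d j i) d)) :=
      Cl_up hQ subset_rfl f_good.2.1 (good_ow _ _) fun v _ h => absurd h (by simp [eta0])
    have h5 := hc _ (VV_sub N r d j i)
    have h6 := gg_anti hQ (n := n) (N := N) (U := VV N r d j (i + 1)) (U' := VV N r d j i)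
      (by rw [VV_succ]; exact Finset.sdiff_subset) (VV_sub N r d j i)
    set g0 := gg Q N n (VV N r d j i)
    set g1 := gg Q N n (VV N r d j (i + 1))
    set pw := Pr Q (VV N r d j i) (ow 0 N) (Cl (HB (zz r d j i) d))
    set pf := Pr Q (VV N r d j i) eta0 (Cl (HB (zz r d j i) d))
    have hpf : 0 < pf := hP0p.trans_le h3
    have hpw0 : 0 ≤ pw := Pr_nonneg hQ0 _
    -- delta * pf >= c0 (pf - pw)
    have h7 : c0 * (pf - pw) ≤ (g1 - g0) * pf := by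
      have a1 : g0 * (pf - pw) ≤ (g1 - g0) * pw := by nlinarith
      have a2 : c0 * (pf - pw) ≤ g0 * (pf - pw) :=
        mul_le_mul_of_nonneg_right h5 (sub_nonneg.2 h4)
      have a3 : (g1 - g0) * pw ≤ (g1 - g0) * pf :=
        mul_le_mul_of_nonneg_left h4 (sub_nonneg.2 h6)
      linarith
    have h8 : c0 * (1 - pw / pf) ≤ g1 - g0 := by
      have : c0 * (1 - pw / pf) = c0 * (pf - pw) / pf := by
        field_simp
      rw [this, div_le_iff₀ hpf]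
      exact h7
    refine le_trans (mul_le_mul_of_nonneg_left (sub_le_sub_left ?_ 1) hc0.le) h8
    have h9 : pw ≤ P1 + (m - 1) * (a * Dd) := by
      refine h2.trans ?_
      have : (i : ℝ) ≤ m - 1 := by
        have : (i : ℝ) + 1 ≤ m := by exact_mod_cast hi
        linarith
      have h10 : (i : ℝ) * (a * Dd) ≤ (m - 1) * (a * Dd) :=
        mul_le_mul_of_nonneg_right this (mul_nonneg ha0 hDd0)
      linarith
    exact div_le_div₀ (hpw0.trans h9) h9 hP0p h3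
  -- one layer
  have hrow : ∀ j : ℕ, j < k → m * s ≤ gg Q N n (lev N (2 * d * (j + 1 : ℕ))) -
      gg Q N n (lev N (2 * d * j)) := by
    intro j hj
    have h1 : ∀ i : ℕ, i ≤ m → i * s ≤ gg Q N n (VV N r d j i) - gg Q N n (VV N r d j 0) := by
      intro i
      induction i with
      | zero => intro _; simp
      | succ i ih =>
        intro hi
        have h2 := ih (by omega)
        have h3 := hblk i j (by omega) hj
        push_cast
        linarith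
    have h2 := h1 m le_rfl
    rw [VV_zero] at h2
    have h3 : gg Q N n (VV N r d j m) ≤ gg Q N n (lev N (2 * d * (j + 1 : ℕ))) := by
      refine gg_anti hQ (fun v hv => ?_) (VV_sub _ _ _ _ _)
      rw [mem_lev] at hv
      push_cast at hv
      refine Finset.mem_sdiff.2 ⟨mem_lev.2 ⟨hv.1, by nlinarith⟩, fun h => ?_⟩
      obtain ⟨l, -, h4⟩ := mem_SS.1 h
      rw [mem_HB, mem_Bq] at h4
      simp only [zz] at h4
      nlinarith
    linarith
  have hall : ∀ j : ℕ, j ≤ k → j * (m * s) ≤ gg Q N n (lev N (2 * d * j)) -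
      gg Q N n (lev N (2 * d * (0 : ℕ))) := by
    intro j
    induction j with
    | zero => intro _; simp
    | succ j ih =>
      intro hj
      have h2 := ih (by omega)
      have h3 := hrow j (by omega)
      push_cast at h2 h3 ⊢
      linarith
  have h1 := hall k le_rfl
  have h2 := gg_le_one hQ N n (lev N (2 * d * k))
  have h3 := hc (lev N (2 * d * (0 : ℕ))) (fun v hv => (mem_lev.1 hv).1)
  linarith

end

end Vale.Agent.P167.QM
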